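import Mathlib

/-!
P190: a Noetherian local domain of dimension at least two whose maximal ideal is generated by two
elements is factorial, and its finite modules of depth two are free.
-/

open IsLocalRing

namespace Vale.Agent.P190.Regular

/-- An integral extension of an integrally closed domain has a prime strictly between zero and the
maximal ideal at each maximal ideal lying over a prime of height at least two. -/
theorem exists_prime_between {A B : Type*} [CommRing A] [CommRing B] [IsDomain B] [Algebra A B]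
    [FaithfulSMul A B] [IsIntegrallyClosed A] [Algebra.IsIntegral A B] (P : Ideal B) [P.IsMaximal]
    {q : Ideal A} [q.IsPrime] (h0 : ⊥ < q) (h1 : q < P.under A) :
    ∃ Q : Ideal (Localization.AtPrime P), Q.IsPrime ∧ ⊥ < Q ∧
      Q < maximalIdeal (Localization.AtPrime P) := by
  have : P.LiesOver (P.under A) := ⟨rfl⟩
  obtain ⟨Q, hQ, hQp, hQq⟩ := P.exists_ideal_lt_liesOver_of_lt (p := q) (q := P.under A) h1
  let e := IsLocalization.AtPrime.orderIsoOfPrime (Localization.AtPrime P) P
  let Q' := e.symm ⟨Q, hQp, hQ.le⟩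
  have hQ' : Ideal.comap (algebraMap B (Localization.AtPrime P)) (Q' : Ideal _) = Q :=
    congrArg Subtype.val (e.apply_symm_apply ⟨Q, hQp, hQ.le⟩)
  refine ⟨Q', Q'.2, bot_lt_iff_ne_bot.2 fun h => ?_,
    lt_of_le_of_ne (le_maximalIdeal_of_isPrime _ (hp := Q'.2)) fun h => ?_⟩
  · have hQb : Q = ⊥ := by
      rw [← hQ', h, Ideal.comap_bot_of_injective]
      exact IsLocalization.injective _ P.primeCompl_le_nonZeroDivisors
    have := hQq.over
    rw [hQb, Ideal.under_bot] at this
    exact h0.ne' this
  · rw [h, ← Ideal.under_def, Localization.AtPrime.under_maximalIdeal] at hQ'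
    exact hQ.ne hQ'.symm

/-- Two elements generate the maximal ideal of the localisation if they do so up to elements
outside. -/
theorem maximalIdeal_atPrime {B : Type*} [CommRing B] (P : Ideal B) [P.IsPrime] {u v : B}
    (hu : u ∈ P) (hv : v ∈ P) (h : ∀ w ∈ P, ∃ t ∉ P, t * w ∈ Ideal.span {u, v}) :
    maximalIdeal (Localization.AtPrime P) = Ideal.span
      {algebraMap B (Localization.AtPrime P) u, algebraMap B (Localization.AtPrime P) v} := by
  rw [← Set.image_pair, ← Ideal.map_span, ← Localization.AtPrime.map_eq_maximalIdeal]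
  refine le_antisymm (Ideal.map_le_iff_le_comap.2 fun w hw => ?_)
    (Ideal.map_mono (Ideal.span_le.2 (by simp [Set.insert_subset_iff, hu, hv])))
  obtain ⟨t, ht, htw⟩ := h w hw
  have := Ideal.mem_map_of_mem (algebraMap B (Localization.AtPrime P)) htw
  rw [map_mul] at this
  exact Ideal.mem_comap.2 ((Ideal.unit_mul_mem_iff_mem _
    (IsLocalization.map_units (Localization.AtPrime P) (⟨t, ht⟩ : P.primeCompl))).1 this)

variable {R : Type*} [CommRing R] [IsDomain R] [IsNoetherianRing R] [IsLocalRing R]

omit [IsDomain R] in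
/-- A prime strictly between zero and the maximal ideal keeps the maximal ideal from being minimal
over a principal ideal. -/
theorem maximal_not_minimal (hP : ∃ P : Ideal R, P.IsPrime ∧ ⊥ < P ∧ P < maximalIdeal R)
    (a : R) (hb : (⊥ : Ideal R).IsPrime) : maximalIdeal R ∉ (Ideal.span {a}).minimalPrimes := by
  intro hmin
  obtain ⟨P, hPp, hP0, hPm⟩ := hP
  have h1 := Ideal.height_le_one_of_isPrincipal_of_mem_minimalPrimes (Ideal.span {a}) _ hmin
  have h2 : P.height < (maximalIdeal R).height := Ideal.height_strict_mono_of_isPrime hPm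
  have h3 : (⊥ : Ideal R).height < P.height := Ideal.height_strict_mono_of_isPrime hP0
  exact absurd ((Order.one_le_iff_pos.2 (pos_of_gt h3)).trans_lt h2) (not_lt.2 h1)

variable {u v : R} (huv : maximalIdeal R = Ideal.span {u, v})
  (hP : ∃ P : Ideal R, P.IsPrime ∧ ⊥ < P ∧ P < maximalIdeal R)

include huv hP

/-- The second generator is not nilpotent modulo the first. -/
theorem pow_notMem (n : ℕ) : v ^ n ∉ Ideal.span {u} := by
  intro h
  have hu : Ideal.span {u} ≤ maximalIdeal R := by
    rw [huv]; exact Ideal.span_mono (by simp)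
  refine maximal_not_minimal hP u Ideal.isPrime_bot ⟨⟨inferInstance, hu⟩, fun Q hQ hQm => ?_⟩
  rw [huv, Ideal.span_le]
  rintro x (rfl | rfl)
  · exact hQ.2 (Ideal.subset_span rfl)
  · exact hQ.1.mem_of_pow_mem n (hQ.2 h)

/-- Modulo the first generator every element is a power of the second times a unit. -/
theorem exists_eq_pow_mul {a : R} (ha : a ∉ Ideal.span {u}) :
    ∃ (n : ℕ) (c : R), IsUnit c ∧ a - v ^ n * c ∈ Ideal.span {u} := by
  classical
  have hex : ∃ n, a ∉ Ideal.span {u} ⊔ Ideal.span {v ^ n} := by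
    by_contra hno
    push Not at hno
    apply ha
    set I := Ideal.span {u} with hI
    have : Nontrivial (R ⧸ I) := Ideal.Quotient.nontrivial_iff.2 fun ht => by
      exact pow_notMem huv hP 0 (by simp [hI ▸ ht])
    have : IsLocalRing (R ⧸ I) :=
      IsLocalRing.of_surjective' (Ideal.Quotient.mk I) Ideal.Quotient.mk_surjective
    have h : ∀ n, Ideal.Quotient.mk I a ∈ (maximalIdeal (R ⧸ I)) ^ n := by
      intro n
      obtain ⟨x, hx, y, hy, hxy⟩ := Submodule.mem_sup.1 (hno n)
      obtain ⟨c, rfl⟩ := Ideal.mem_span_singleton'.1 hy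
      rw [← hxy, map_add, Ideal.Quotient.eq_zero_iff_mem.2 hx, zero_add, map_mul, map_pow]
      refine Ideal.mul_mem_left _ _ (Ideal.pow_mem_pow ?_ n)
      rw [IsLocalRing.mem_maximalIdeal]
      intro hv
      obtain ⟨w, hw⟩ := hv.exists_right_inv
      obtain ⟨w, rfl⟩ := Ideal.Quotient.mk_surjective w
      rw [← map_mul, ← map_one (Ideal.Quotient.mk I), Ideal.Quotient.eq] at hw
      have : (1 : R) ∈ maximalIdeal R := by
        rw [huv]
        have := sub_mem (Ideal.mul_mem_right w _ (Ideal.subset_span (show v ∈ ({u, v} : Set R) by simp)))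
          (Ideal.span_mono (show ({u} : Set R) ⊆ {u, v} by simp) hw)
        simpa using this
      exact (maximalIdeal.isMaximal R).ne_top ((Ideal.eq_top_iff_one _).2 this)
    have hk := Ideal.iInf_pow_eq_bot_of_isLocalRing (maximalIdeal (R ⧸ I))
      (maximalIdeal.isMaximal _).ne_top
    rw [← Ideal.Quotient.eq_zero_iff_mem, ← Ideal.mem_bot, ← hk]
    exact Submodule.mem_iInf _ |>.2 h
  have h0 : Nat.find hex ≠ 0 := by
    intro h
    have h' := Nat.find_spec hex
    rw [h] at h'
    simp at h'
  obtain ⟨n, hn⟩ := Nat.exists_eq_succ_of_ne_zero h0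
  have hmem : a ∈ Ideal.span {u} ⊔ Ideal.span {v ^ n} :=
    not_not.1 (Nat.find_min hex (by omega))
  obtain ⟨x, hx, y, hy, hxy⟩ := Submodule.mem_sup.1 hmem
  obtain ⟨c, rfl⟩ := Ideal.mem_span_singleton'.1 hy
  refine ⟨n, c, ?_, by rw [← hxy]; simpa [mul_comm] using hx⟩
  by_contra hc
  have hcm : c ∈ maximalIdeal R := hc
  rw [huv, Ideal.mem_span_pair] at hcm
  obtain ⟨p, q, rfl⟩ := hcm
  apply Nat.find_spec hex
  rw [hn, ← hxy, show x + (p * u + q * v) * v ^ n = (x + p * v ^ n * u) + q * v ^ (n + 1) by ring]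
  exact Submodule.add_mem_sup (add_mem hx (Ideal.mul_mem_left _ _ (Ideal.subset_span rfl)))
    (Ideal.mul_mem_left _ _ (Ideal.subset_span rfl))

/-- The first generator is prime. -/
theorem span_isPrime : (Ideal.span {u}).IsPrime := by
  refine ⟨fun ht => pow_notMem huv hP 0 (by simp [ht]), fun {a b} hab => ?_⟩
  by_contra hno
  push Not at hno
  obtain ⟨n, c, hc, ha⟩ := exists_eq_pow_mul huv hP hno.1
  obtain ⟨m, e, he, hb⟩ := exists_eq_pow_mul huv hP hno.2
  have h : v ^ (n + m) * (c * e) ∈ Ideal.span {u} := by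
    have h' : a * b - v ^ (n + m) * (c * e) ∈ Ideal.span {u} := by
      rw [show a * b - v ^ (n + m) * (c * e) = a * (b - v ^ m * e) + v ^ m * e * (a - v ^ n * c) by
        ring]
      exact add_mem (Ideal.mul_mem_left _ _ hb) (Ideal.mul_mem_left _ _ ha)
    simpa using sub_mem hab h'
  exact pow_notMem huv hP _ ((Ideal.mul_unit_mem_iff_mem _ (hc.mul he)).1 h)

/-- A finite module on which the two generators form a regular sequence is free. -/
theorem free_of_regular {M : Type*} [AddCommGroup M] [Module R M] [Module.Finite R M]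
    (hu : IsSMulRegular M u) (hv : IsSMulRegular (QuotSMulTop u M) v) : Module.Free R M := by
  have := span_isPrime huv hP
  have humem : u ∈ (⊥ : Ideal R).jacobson := by
    rw [IsLocalRing.jacobson_eq_maximalIdeal ⊥ bot_ne_top, huv]
    exact Ideal.subset_span (by simp)
  have := Module.finitePresentation_of_finite R M
  rw [← Module.free_quotSMulTop_iff_free R M humem hu]
  have hprin : IsPrincipalIdealRing (R ⧸ Ideal.span {u}) := by
    classical
    refine ⟨fun J => ?_⟩
    by_cases hJ : J = ⊥
    · exact hJ ▸ ⟨⟨0, by simp⟩⟩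
    · have hex : ∃ n, Ideal.Quotient.mk (Ideal.span {u}) (v ^ n) ∈ J := by
        obtain ⟨x, hx, hx0⟩ := Submodule.exists_mem_ne_zero_of_ne_bot hJ
        obtain ⟨a, rfl⟩ := Ideal.Quotient.mk_surjective x
        obtain ⟨n, c, hc, hac⟩ := exists_eq_pow_mul huv hP
          (fun h => hx0 (Ideal.Quotient.eq_zero_iff_mem.2 h))
        refine ⟨n, (Ideal.mul_unit_mem_iff_mem J (hc.map (Ideal.Quotient.mk _))).1 ?_⟩
        rwa [← map_mul, ← Ideal.Quotient.eq.2 hac]
      refine ⟨⟨Ideal.Quotient.mk _ (v ^ Nat.find hex), le_antisymm (fun x hx => ?_) ?_⟩⟩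
      · obtain ⟨a, rfl⟩ := Ideal.Quotient.mk_surjective x
        by_cases ha : a ∈ Ideal.span {u}
        · rw [Ideal.Quotient.eq_zero_iff_mem.2 ha]; exact zero_mem _
        obtain ⟨n, c, hc, hac⟩ := exists_eq_pow_mul huv hP ha
        rw [Ideal.Quotient.eq.2 hac] at hx ⊢
        have hn : Nat.find hex ≤ n := Nat.find_min' hex
          ((Ideal.mul_unit_mem_iff_mem J (hc.map (Ideal.Quotient.mk _))).1 (by rwa [← map_mul]))
        refine Submodule.mem_span_singleton.2 ⟨Ideal.Quotient.mk _ (v ^ (n - Nat.find hex) * c), ?_⟩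
        rw [smul_eq_mul, ← map_mul, mul_right_comm, ← pow_add, Nat.sub_add_cancel hn]
      · rw [Submodule.span_singleton_le_iff_mem]
        exact Nat.find_spec hex
  have : Module.Finite (R ⧸ Ideal.span {u}) (QuotSMulTop u M) :=
    Module.Finite.of_restrictScalars_finite R _ _
  have : Module.IsTorsionFree (R ⧸ Ideal.span {u}) (QuotSMulTop u M) := by
    refine Module.isTorsionFree_iff_smul_eq_zero.2 fun x y hxy => ?_
    obtain ⟨a, rfl⟩ := Ideal.Quotient.mk_surjective x
    by_cases ha : a ∈ Ideal.span {u}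
    · exact Or.inl (Ideal.Quotient.eq_zero_iff_mem.2 ha)
    obtain ⟨n, c, hc, hac⟩ := exists_eq_pow_mul huv hP ha
    refine Or.inr ?_
    rw [Ideal.Quotient.eq.2 hac, Ideal.Quotient.mk_eq_mk_iff_sub_mem _ _ |>.2 (by simp :
      v ^ n * c - v ^ n * c ∈ Ideal.span {u}), ← Ideal.Quotient.algebraMap_eq, algebraMap_smul,
      mul_smul] at hxy
    exact (hc.smul_eq_zero).1 ((hv.pow n).right_eq_zero_of_smul hxy)
  exact inferInstance

/-- Every prime strictly inside the maximal ideal is principal, so the ring is factorial. -/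
theorem isPrincipal_of_ne_maximal (P : Ideal R) [hPp : P.IsPrime] (h1 : P.height = 1) :
    P.IsPrincipal := by
  have hu' := span_isPrime huv hP
  have hvu : maximalIdeal R = Ideal.span {v, u} := by rw [huv, Set.pair_comm]
  have hv' := span_isPrime hvu hP
  have hv0 : v ≠ 0 := fun h => pow_notMem huv hP 1 (by simp [h])
  by_cases hvP : v ∈ P
  · exact ⟨v, P.eq_span_singleton_of_height_eq_one h1 hvP
      ((Ideal.span_singleton_prime hv0).1 hv')⟩
  have hu0 : u ≠ 0 := fun h => pow_notMem hvu hP 1 (by simp [h])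
  have : Module.Finite R P := Module.Finite.iff_fg.2 (IsNoetherian.noetherian P)
  have hfree : Module.Free R P := by
    refine free_of_regular huv hP (fun a b h => Subtype.ext (mul_left_cancel₀ hu0 (by
      simpa using congrArg Subtype.val h))) ?_
    refine isSMulRegular_iff_right_eq_zero_of_smul.2 fun y hy => ?_
    obtain ⟨p, rfl⟩ := Submodule.Quotient.mk_surjective _ y
    rw [← Submodule.Quotient.mk_smul, Submodule.Quotient.mk_eq_zero,
      Submodule.mem_smul_pointwise_iff_exists] at hy
    obtain ⟨q, _, hq⟩ := hy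
    have hq' : u * (q : R) = v * (p : R) := by simpa using congrArg Subtype.val hq
    have hvmem : v ∉ Ideal.span {u} := by simpa using pow_notMem huv hP 1
    obtain ⟨r, hr⟩ := Ideal.mem_span_singleton'.1 ((hu'.mem_or_mem
      (hq' ▸ Ideal.mul_mem_right _ _ (Ideal.subset_span rfl) : v * (p : R) ∈ _)).resolve_left hvmem)
    have hrq : (q : R) = v * r := mul_left_cancel₀ hu0 (by rw [hq', ← hr]; ring)
    have hrP : r ∈ P := (hPp.mem_or_mem (hrq ▸ q.2 : v * r ∈ P)).resolve_left hvP
    rw [Submodule.Quotient.mk_eq_zero, Submodule.mem_smul_pointwise_iff_exists]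
    exact ⟨⟨r, hrP⟩, Submodule.mem_top, Subtype.ext (by simp [← hr, mul_comm])⟩
  let bs := Module.Free.chooseBasis R P
  have hsub : Subsingleton (Module.Free.ChooseBasisIndex R P) := by
    refine ⟨fun i j => ?_⟩
    by_contra hij
    have h : (bs j : R) • bs i = (bs i : R) • bs j := Subtype.ext (by simp [mul_comm])
    have h2 := congrArg (fun x => bs.repr x i) h
    simp [Ne.symm hij] at h2
    exact bs.ne_zero j (Subtype.ext (by simpa using h2))
  rcases isEmpty_or_nonempty (Module.Free.ChooseBasisIndex R P) with he | ⟨⟨i⟩⟩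
  · have := bs.repr.toEquiv.subsingleton
    exact ⟨⟨0, le_antisymm (fun x hx => by
      have := congrArg Subtype.val (Subsingleton.elim (⟨x, hx⟩ : P) 0)
      simp at this; simp [this]) (by simp)⟩⟩
  · refine ⟨⟨(bs i : R), le_antisymm (fun x hx => ?_) (by simp [Submodule.span_le])⟩⟩
    have h := bs.sum_repr ⟨x, hx⟩
    refine Submodule.mem_span_singleton.2 ⟨bs.repr ⟨x, hx⟩ i, ?_⟩
    rw [Fintype.sum_subsingleton _ i] at h
    simpa using congrArg Subtype.val h

theorem uniqueFactorizationMonoid : UniqueFactorizationMonoid R :=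
  UniqueFactorizationMonoid.of_forall_isPrincipal_of_height_eq_one fun P _ h1 =>
    isPrincipal_of_ne_maximal huv hP P h1

theorem isIntegrallyClosed : IsIntegrallyClosed R :=
  have := uniqueFactorizationMonoid huv hP
  inferInstance

end Vale.Agent.P190.Regular
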