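import Vale.Agent.P190.Defs
import Vale.Agent.P190.Hilb.Dual
import Vale.Agent.P190.Bound.Regular

/-!
P190: the three standard charts of a cone. Each is finite over a polynomial ring in two variables,
hence Noetherian; if the cone is smooth and the ground field algebraically closed, each is
integrally closed, and the ring is saturated.
-/

namespace Vale.Agent.P190.Bound.Chart

variable {k K : Type} [Field k] [Field K] [Algebra k K] (C : Cone k K)

/-- One of `1, η, ζ`. -/
def IsStd (s : K) : Prop := s ∈ ({1, C.η, C.ζ} : Set K)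

theorem eta_ne_zero : C.η ≠ 0 := by simpa using C.indep.ne_zero 0

theorem zeta_ne_zero : C.ζ ≠ 0 := by simpa using C.indep.ne_zero 1

variable {C}

theorem IsStd.ne_zero {s : K} (hs : IsStd C s) : s ≠ 0 := by
  rcases hs with rfl | rfl | rfl
  exacts [one_ne_zero, eta_ne_zero C, zeta_ne_zero C]

theorem IsStd.mem_one {s : K} (hs : IsStd C s) : s ∈ C.R 1 := by
  rcases hs with rfl | rfl | rfl
  exacts [C.one_mem, C.η_mem, C.ζ_mem]

theorem mul_std_mem {s a : K} (hs : IsStd C s) {n : ℤ} (ha : a ∈ C.R n) :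
    a * s ∈ C.R (n + 1) :=
  C.mul_mem n 1 a ha s hs.mem_one

theorem R_mono {m n : ℤ} (h : m ≤ n) : C.R m ≤ C.R n := by
  induction n, h using Int.leInduction with
  | base => exact le_rfl
  | succ n _ ih => exact ih.trans fun a ha => by simpa using C.mul_mem n 1 a ha 1 C.one_mem

theorem pow_mem {s : K} (hs : IsStd C s) {v : K} {n : ℤ} (h : v * s ^ n ∈ C.R n) {m : ℤ}
    (hm : n ≤ m) : v * s ^ m ∈ C.R m := by
  induction m, hm using Int.leInduction with
  | base => exact h
  | succ m _ ih =>
    rw [zpow_add_one₀ hs.ne_zero, ← mul_assoc]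
    exact mul_std_mem hs ih

/-- The chart at `s` consists of the fractions with a power of `s` below. -/
theorem mem_chart_iff {s : K} (hs : IsStd C s) {v : K} :
    v ∈ C.chart s ↔ ∃ n : ℤ, v * s ^ n ∈ C.R n := by
  constructor
  · intro hv
    induction hv using Algebra.adjoin_induction with
    | mem x hx =>
      obtain ⟨n, a, ha, rfl⟩ := hx
      exact ⟨n, by rw [zpow_natCast, div_mul_cancel₀ a (pow_ne_zero n hs.ne_zero)]; exact ha⟩
    | algebraMap r =>
      refine ⟨0, ?_⟩
      rw [zpow_zero, mul_one, C.R_zero, Algebra.algebraMap_eq_smul_one]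
      exact Submodule.smul_mem _ _ (Submodule.mem_span_singleton_self 1)
    | add x y _ _ hx hy =>
      obtain ⟨m, hm⟩ := hx
      obtain ⟨n, hn⟩ := hy
      exact ⟨max m n, by
        rw [add_mul]
        exact add_mem (pow_mem hs hm (le_max_left _ _)) (pow_mem hs hn (le_max_right _ _))⟩
    | mul x y _ _ hx hy =>
      obtain ⟨m, hm⟩ := hx
      obtain ⟨n, hn⟩ := hy
      refine ⟨m + n, ?_⟩
      rw [zpow_add₀ hs.ne_zero, mul_mul_mul_comm]
      exact C.mul_mem _ _ _ hm _ hn
  · rintro ⟨n, hn⟩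
    rcases lt_or_ge n 0 with h | h
    · rw [C.R_neg n h, Submodule.mem_bot] at hn
      rcases mul_eq_zero.1 hn with h0 | h0
      · rw [h0]; exact zero_mem _
      · exact absurd h0 (zpow_ne_zero _ hs.ne_zero)
    · lift n to ℕ using h
      rw [zpow_natCast] at hn
      exact Algebra.subset_adjoin
        ⟨n, v * s ^ n, hn, by rw [mul_div_cancel_right₀ v (pow_ne_zero n hs.ne_zero)]⟩

theorem div_mem_chart {s a : K} (hs : IsStd C s) {n : ℤ} (ha : a ∈ C.R n) :
    a / s ^ n ∈ C.chart s :=
  (mem_chart_iff hs).2 ⟨n, by rwa [div_mul_cancel₀ a (zpow_ne_zero n hs.ne_zero)]⟩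

/-- The ring is saturated with respect to `x, y`. -/
theorem sat (hC : C.Smooth) {a : K} {n : ℤ} (h1 : a ∈ C.R (n + 1)) (h2 : C.η * a ∈ C.R (n + 1)) :
    a ∈ C.R n := by
  have h : (fun _ => a : Fin 1 → K) ∈ dualFam C.η C.ζ (dualFam C.η C.ζ (one1 C.R)) n := by
    apply Hilb.dualFam_sat C.indep
    · rw [hC.1]; exact h1
    · rw [hC.1]; exact h2
  rw [hC.1] at h
  exact h

/-- An element lying in the charts at `x` and `y` lies in the ring. -/
theorem mem_of_charts (hC : C.Smooth) {a : K} {n : ℤ} (h1 : a ∈ C.chart 1)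
    (h2 : a / C.η ^ n ∈ C.chart C.η) : a ∈ C.R n := by
  have key : ∀ (j i : ℕ) (a : K) (n : ℤ),
      a ∈ C.R (n + i) → a * C.η ^ j ∈ C.R (n + j) → a ∈ C.R n := by
    intro j
    induction j with
    | zero => intro i a n _ h; simpa using h
    | succ j ih =>
      intro i a n ha hj
      have hg : a * C.η ∈ C.R (n + 1) := ih i (a * C.η) (n + 1)
        (by rw [show n + 1 + (i : ℤ) = n + i + 1 by ring]; exact mul_std_mem (by simp [IsStd]) ha)
        (by rw [show n + 1 + (j : ℤ) = n + (j + 1 : ℕ) by push_cast; ring, mul_assoc, ← pow_succ']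
            exact hj)
      clear hj
      induction i with
      | zero => simpa using ha
      | succ i hi =>
        refine hi (sat hC ?_ ?_)
        · rw [show n + (i : ℤ) + 1 = n + (i + 1 : ℕ) by push_cast; ring]; exact ha
        · rw [mul_comm]; exact R_mono (by omega) hg
  have hx : IsStd C 1 := by simp [IsStd]
  have hy : IsStd C C.η := by simp [IsStd]
  obtain ⟨m, hm⟩ := (mem_chart_iff hx).1 h1
  obtain ⟨l, hl⟩ := (mem_chart_iff hy).1 h2
  refine key (l - n).toNat (m - n).toNat a n ?_ ?_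
  · rw [one_zpow, mul_one] at hm
    exact R_mono (by omega) hm
  · have := pow_mem hy hl (m := n + ((l - n).toNat : ℕ)) (by omega)
    rwa [zpow_add₀ hy.ne_zero, ← mul_assoc, div_mul_cancel₀ a (zpow_ne_zero n hy.ne_zero),
      zpow_natCast] at this

theorem indep_swap {η ζ : K} (h : AlgebraicIndependent k ![η, ζ]) :
    AlgebraicIndependent k ![η⁻¹, ζ / η] := by
  classical
  have hη : η ≠ 0 := by simpa using h.ne_zero 0
  rw [algebraicIndependent_iff]
  intro p hp
  by_contra hp0
  set N := p.totalDegree with hN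
  let e : (Fin 2 →₀ ℕ) → (Fin 2 →₀ ℕ) := fun t =>
    Finsupp.equivFunOnFinite.symm ![N - (t 0 + t 1), t 1]
  have hle : ∀ t ∈ p.support, t 0 + t 1 ≤ N := fun t ht => by
    have := MvPolynomial.le_totalDegree ht
    rwa [Finsupp.sum_fintype _ _ (fun _ => rfl), Fin.sum_univ_two] at this
  set q : MvPolynomial (Fin 2) k :=
    ∑ t ∈ p.support, MvPolynomial.monomial (e t) (p.coeff t) with hq
  have hq0 : MvPolynomial.aeval ![η, ζ] q = 0 := by
    have hterm : ∀ t ∈ p.support, MvPolynomial.aeval ![η, ζ] (MvPolynomial.monomial (e t) (p.coeff t))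
        = η ^ N * MvPolynomial.aeval ![η⁻¹, ζ / η] (MvPolynomial.monomial t (p.coeff t)) := by
      intro t ht
      obtain ⟨i, hi⟩ := Nat.exists_eq_add_of_le (hle t ht)
      simp only [MvPolynomial.aeval_monomial, Finsupp.prod_fintype, pow_zero, implies_true,
        Fin.prod_univ_two, e, Finsupp.coe_equivFunOnFinite_symm,
        Matrix.cons_val_zero, Matrix.cons_val_one]
      rw [hi, Nat.add_sub_cancel_left, pow_add, pow_add, inv_pow, div_pow]
      field_simp
    rw [hq, map_sum, Finset.sum_congr rfl hterm, ← Finset.mul_sum, ← map_sum,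
      ← MvPolynomial.as_sum p, hp, mul_zero]
  obtain ⟨t, ht⟩ := MvPolynomial.support_nonempty.2 hp0
  have h1 : q.coeff (e t) = p.coeff t := by
    rw [hq, MvPolynomial.coeff_sum, Finset.sum_eq_single t (fun t' ht' hne => ?_)
      (fun h => absurd ht h), MvPolynomial.coeff_monomial, if_pos rfl]
    rw [MvPolynomial.coeff_monomial, if_neg]
    intro he
    apply hne
    have he0 := congrArg (fun f : Fin 2 →₀ ℕ => f 0) he
    have he1 := congrArg (fun f : Fin 2 →₀ ℕ => f 1) he
    simp [e] at he0 he1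
    have := hle t ht
    have := hle t' ht'
    ext i
    fin_cases i <;> simp <;> omega
  rw [h.eq_zero_of_aeval_eq_zero q hq0] at h1
  exact MvPolynomial.mem_support_iff.1 ht (by simpa using h1.symm)

/-- A chart is finite over two independent coordinates. -/
theorem exists_coord {s : K} (hs : IsStd C s) :
    ∃ φ : MvPolynomial (Fin 2) k →ₐ[k] C.chart s, Function.Injective φ ∧ φ.Finite := by
  classical
  obtain ⟨u, hu, hu1, hu2⟩ : ∃ u : Fin 2 → K, AlgebraicIndependent k u ∧
      (∀ i, u i ∈ C.chart s) ∧ ∀ x ∈ ({1, C.η, C.ζ} : Set K),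
        x / s ∈ Algebra.adjoin k (Set.range u) := by
    have hg : ∀ {x : K}, x ∈ C.R 1 → x / s ∈ C.chart s := fun {x} hx => by
      simpa using div_mem_chart hs hx
    rcases hs with rfl | rfl | rfl
    · refine ⟨![C.η, C.ζ], C.indep, fun i => ?_, ?_⟩
      · fin_cases i
        · simpa using hg C.η_mem
        · simpa using hg C.ζ_mem
      · rintro x (rfl | rfl | rfl)
        · simp
        · exact Algebra.subset_adjoin ⟨0, by simp⟩
        · exact Algebra.subset_adjoin ⟨1, by simp⟩
    · refine ⟨![C.η⁻¹, C.ζ / C.η], indep_swap C.indep, fun i => ?_, ?_⟩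
      · fin_cases i
        · simpa using hg C.one_mem
        · simpa using hg C.ζ_mem
      · rintro x (rfl | rfl | rfl)
        · exact Algebra.subset_adjoin ⟨0, by simp⟩
        · simp [eta_ne_zero C]
        · exact Algebra.subset_adjoin ⟨1, by simp⟩
    · refine ⟨![C.ζ⁻¹, C.η / C.ζ], indep_swap ?_, fun i => ?_, ?_⟩
      · convert C.indep.comp ![1, 0] (by decide) using 1
        ext i
        fin_cases i <;> simp
      · fin_cases i
        · simpa using hg C.one_mem
        · simpa using hg C.η_mem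
      · rintro x (rfl | rfl | rfl)
        · exact Algebra.subset_adjoin ⟨0, by simp⟩
        · exact Algebra.subset_adjoin ⟨1, by simp⟩
        · simp [zeta_ne_zero C]
  let φ : MvPolynomial (Fin 2) k →ₐ[k] C.chart s := MvPolynomial.aeval fun i => ⟨u i, hu1 i⟩
  have hφ : ∀ p, (φ p : K) = MvPolynomial.aeval u p := fun p => by
    change (C.chart s).val (φ p) = _
    rw [← AlgHom.comp_apply, MvPolynomial.comp_aeval]
    rfl
  have hrange : ∀ {c : K}, c ∈ Algebra.adjoin k (Set.range u) → ∃ p, (φ p : K) = c := by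
    intro c hc
    rw [Algebra.adjoin_range_eq_range_aeval] at hc
    obtain ⟨p, rfl⟩ := hc
    exact ⟨p, hφ p⟩
  refine ⟨φ, fun p q h => hu (by simpa [hφ] using congrArg (fun z : C.chart s => (z : K)) h), ?_⟩
  let _ : Algebra (MvPolynomial (Fin 2) k) (C.chart s) := φ.toRingHom.toAlgebra
  change Module.Finite (MvPolynomial (Fin 2) k) (C.chart s)
  let f : ∀ n : ℕ, C.R (n : ℤ) →ₗ[k] C.chart s := fun n =>
    LinearMap.codRestrict (Subalgebra.toSubmodule (C.chart s))
      (LinearMap.mulRight k (s ^ (n : ℤ))⁻¹ ∘ₗ (C.R (n : ℤ)).subtype) fun a =>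
      show (a : K) * (s ^ (n : ℤ))⁻¹ ∈ C.chart s by
        rw [← div_eq_mul_inv]; exact div_mem_chart hs a.2
  have hf : ∀ (n : ℕ) (a : C.R (n : ℤ)), ((f n a : C.chart s) : K) = (a : K) / s ^ (n : ℤ) := fun (n : ℕ) (a : C.R (n : ℤ)) =>
    (div_eq_mul_inv _ _).symm
  have : ∀ n : ℕ, FiniteDimensional k (C.R n) := fun n => C.fd n
  let T : Finset (C.chart s) := (Finset.range (C.g + 1)).biUnion fun n =>
    (Module.finBasis k (C.R n) |> fun b => Finset.univ.image fun i => f n (b i))
  refine ⟨⟨T, ?_⟩⟩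
  set M := Submodule.span (MvPolynomial (Fin 2) k) (T : Set (C.chart s)) with hM
  have hsm : ∀ (c : k) (x : C.chart s), x ∈ M → c • x ∈ M := fun c x hx => by
    have := M.smul_mem (MvPolynomial.C c) hx
    rwa [Algebra.smul_def, RingHom.algebraMap_toAlgebra, AlgHom.toRingHom_eq_coe, RingHom.coe_coe,
      MvPolynomial.algHom_C, ← Algebra.smul_def] at this
  have hlow : ∀ n ≤ C.g, ∀ a : C.R n, f n a ∈ M := by
    intro n hn a
    rw [← (Module.finBasis k (C.R n)).sum_repr a, map_sum]
    refine sum_mem fun i _ => ?_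
    rw [map_smul]
    refine hsm _ _ (Submodule.subset_span ?_)
    exact Finset.mem_biUnion.2 ⟨n, by simp; omega, Finset.mem_image.2 ⟨i, by simp, rfl⟩⟩
  have hall : ∀ n : ℕ, ∀ a : C.R n, f n a ∈ M := by
    intro n
    induction n with
    | zero => exact hlow 0 (Nat.zero_le _)
    | succ n ih =>
      intro a
      rcases Nat.lt_or_ge n C.g with h | h
      · exact hlow _ (by omega) a
      have ha : (a : K) ∈ C.R ((n : ℤ) + 1) := a.2
      rw [C.gen n (by exact_mod_cast h), Submodule.mem_sup] at ha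
      obtain ⟨y, hy, z, hz, hyz⟩ := ha
      obtain ⟨a0, ha0, w, hw, rfl⟩ := Submodule.mem_sup.1 hy
      obtain ⟨a1, ha1, rfl⟩ := Submodule.mem_map.1 hw
      obtain ⟨a2, ha2, rfl⟩ := Submodule.mem_map.1 hz
      obtain ⟨p0, hp0⟩ := hrange (hu2 1 (by simp))
      obtain ⟨p1, hp1⟩ := hrange (hu2 C.η (by simp))
      obtain ⟨p2, hp2⟩ := hrange (hu2 C.ζ (by simp))
      have heq : f (n + 1) a = p0 • f n ⟨a0, ha0⟩ + p1 • f n ⟨a1, ha1⟩ + p2 • f n ⟨a2, ha2⟩ := by
        refine Subtype.ext ?_
        simp only [Algebra.smul_def, RingHom.algebraMap_toAlgebra, AlgHom.toRingHom_eq_coe,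
          RingHom.coe_coe, Subalgebra.coe_add, Subalgebra.coe_mul, hf, hp0, hp1, hp2, ← hyz,
          LinearMap.mulLeft_apply]
        have := hs.ne_zero
        push_cast
        rw [zpow_add_one₀ this]
        field_simp
      rw [heq]
      exact add_mem (add_mem (M.smul_mem _ (ih _)) (M.smul_mem _ (ih _))) (M.smul_mem _ (ih _))
  refine eq_top_iff.2 fun x _ => ?_
  obtain ⟨m, hm⟩ := (mem_chart_iff hs).1 x.2
  have hm' := pow_mem hs hm (m := ((m.toNat : ℕ) : ℤ)) (by omega)
  have hx : x = f m.toNat ⟨_, hm'⟩ := Subtype.ext (by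
    rw [hf]; exact (mul_div_cancel_right₀ _ (zpow_ne_zero _ hs.ne_zero)).symm)
  rw [hx]
  exact hall _ _

theorem isNoetherianRing {s : K} (hs : IsStd C s) : IsNoetherianRing (C.chart s) := by
  obtain ⟨φ, -, hfin⟩ := exists_coord hs
  let _ : Algebra (MvPolynomial (Fin 2) k) (C.chart s) := φ.toRingHom.toAlgebra
  have : Module.Finite (MvPolynomial (Fin 2) k) (C.chart s) := hfin
  exact IsNoetherianRing.of_finite (MvPolynomial (Fin 2) k) _

variable [IsAlgClosed k]

open MvPolynomial in
/-- A smooth chart is integrally closed. -/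
theorem isIntegrallyClosed (hC : C.Smooth) {s : K} (hs : IsStd C s) :
    IsIntegrallyClosed (C.chart s) := by
  classical
  obtain ⟨φ, hinj, hfin⟩ := exists_coord hs
  let _ : Algebra (MvPolynomial (Fin 2) k) (C.chart s) := φ.toRingHom.toAlgebra
  have : Module.Finite (MvPolynomial (Fin 2) k) (C.chart s) := hfin
  have : FaithfulSMul (MvPolynomial (Fin 2) k) (C.chart s) :=
    (faithfulSMul_iff_algebraMap_injective _ _).2 hinj
  have : Algebra.IsIntegral (MvPolynomial (Fin 2) k) (C.chart s) :=
    Algebra.IsIntegral.of_finite _ _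
  have := isNoetherianRing hs
  refine IsIntegrallyClosed.of_localization_maximal fun P _ hP => ?_
  obtain ⟨u, hu, v, hv, huv⟩ := hC.2 s hs P hP
  have hmax : (P.under (MvPolynomial (Fin 2) k)).IsMaximal :=
    Ideal.isMaximal_comap_of_isIntegral_of_isMaximal P
  obtain ⟨z, hz⟩ := isMaximal_iff_eq_vanishingIdeal_singleton.1 hmax
  let ev : MvPolynomial (Fin 2) k →ₐ[k] Polynomial k :=
    aeval ![Polynomial.C (z 0), Polynomial.X]
  have hq : (RingHom.ker ev.toRingHom).IsPrime := RingHom.ker_isPrime _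
  have hcomp : ∀ p, (ev p).eval (z 1) = eval z p := fun p => by
    have : (Polynomial.aeval (z 1)).comp ev = aeval z := by
      ext i
      fin_cases i <;> simp [ev]
    have h := AlgHom.congr_fun this p
    simpa using h
  have hmem : ∀ p, p ∈ P.under (MvPolynomial (Fin 2) k) ↔ eval z p = 0 := fun p => by
    rw [hz, mem_vanishingIdeal_singleton_iff]
    simp
  have h0 : ⊥ < RingHom.ker ev.toRingHom := bot_lt_iff_ne_bot.2 fun h => by
    have : (X 0 - MvPolynomial.C (z 0) : MvPolynomial (Fin 2) k) ∈ RingHom.ker ev.toRingHom := by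
      simp [ev]
    rw [h, Ideal.mem_bot, sub_eq_zero] at this
    simpa using congrArg totalDegree this
  have h1 : RingHom.ker ev.toRingHom < P.under (MvPolynomial (Fin 2) k) := by
    refine lt_of_le_of_ne (fun p hp => ?_) fun h => ?_
    · rw [hmem, ← hcomp]
      simp [show ev p = 0 from hp]
    · have : (X 1 - MvPolynomial.C (z 1) : MvPolynomial (Fin 2) k) ∈ RingHom.ker ev.toRingHom := by
        rw [h, hmem]; simp
      simp [ev, sub_eq_zero] at this
      exact Polynomial.X_ne_C _ this
  exact Regular.isIntegrallyClosed (Regular.maximalIdeal_atPrime P hu hv huv)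
    (Regular.exists_prime_between P h0 h1)

/-- An element integral over a smooth chart that is a quotient of two of its elements lies in it. -/
theorem mem_of_isIntegral (hC : C.Smooth) {s : K} (hs : IsStd C s) {c : K}
    (hc : IsIntegral (C.chart s) c) {x : C.chart s} (hx : x ≠ 0) (hy : c * (x : K) ∈ C.chart s) :
    c ∈ C.chart s := by
  have := isIntegrallyClosed hC hs
  let f : FractionRing (C.chart s) →ₐ[C.chart s] K :=
    IsFractionRing.liftAlgHom (g := Algebra.ofId (C.chart s) K) Subtype.val_injective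
  set d : FractionRing (C.chart s) := algebraMap _ _ (⟨_, hy⟩ : C.chart s) / algebraMap _ _ x
  have hd : f d = c := by
    rw [map_div₀, AlgHom.commutes, AlgHom.commutes]
    exact mul_div_cancel_right₀ c (fun h => hx (Subtype.ext h))
  rw [← hd, isIntegral_algHom_iff f f.toRingHom.injective] at hc
  obtain ⟨b, hb⟩ := IsIntegrallyClosed.isIntegral_iff.1 hc
  rw [← hd, ← hb, AlgHom.commutes]
  exact b.2

end Vale.Agent.P190.Bound.Chart
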