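import Vale.Agent.P190.Hilb.Reflexive

/-!
The colon family `Hom(N, R)` of a stable family, its identity with the trace dual when the canonical
family is a shift of the ring, and Hilbert polynomials centred at `a / 2`.
-/

open Filter Module Submodule

namespace Vale.Agent.P190.Bound

open Vale.Agent.P190 Hilb

variable {k K : Type} [Field k] [Field K] [Algebra k K] (C : Cone k K) {r : ℕ}

/-- Stability under the ring. -/
def Stable (N : ℤ → Submodule k (Fin r → K)) : Prop :=
  ∀ (m n : ℤ), ∀ a ∈ C.R m, ∀ v ∈ N n, a • v ∈ N (m + n)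

/-- The family `Hom(N, R)`. -/
noncomputable def colon (N : ℤ → Submodule k (Fin r → K)) (n : ℤ) : Submodule k (Fin r → K) where
  carrier := {w | ∀ j, ∀ v ∈ N j, ∑ i, w i * v i ∈ C.R (n + j)}
  add_mem' := fun {w w'} hw hw' j v hv => by
    simp only [Pi.add_apply, add_mul, Finset.sum_add_distrib]
    exact add_mem (hw j v hv) (hw' j v hv)
  zero_mem' := fun j v _ => by simp
  smul_mem' := fun c w hw j v hv => by
    simp only [Pi.smul_apply, smul_mul_assoc, ← Finset.smul_sum]
    exact Submodule.smul_mem _ c (hw j v hv)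

/-- The parameters of the canonical family. -/
def OmegaData (a : ℤ) (w : K) : Prop :=
  w ≠ 0 ∧ ∀ n, C.omega n = (one1 C.R (n + a)).map (DistribSMul.toLinearMap k (Fin 1 → K) w)

variable {C} {N M : ℤ → Submodule k (Fin r → K)} {a : ℤ} {w : K}

theorem mem_colon {n : ℤ} {u : Fin r → K} :
    u ∈ colon C N n ↔ ∀ j, ∀ v ∈ N j, ∑ i, u i * v i ∈ C.R (n + j) := Iff.rfl

theorem colon_anti (h : ∀ n, N n ≤ M n) (n : ℤ) : colon C M n ≤ colon C N n :=
  fun _ hu j v hv => hu j v (h j hv)

theorem le_colon_colon (n : ℤ) : N n ≤ colon C (colon C N) n := fun u hu j v hv => by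
  have := hv n u hu
  rw [add_comm n j]
  simpa [mul_comm] using this

theorem colon_colon_colon (n : ℤ) : colon C (colon C (colon C N)) n = colon C N n :=
  le_antisymm (colon_anti (fun m => le_colon_colon m) n) (le_colon_colon n)

theorem stable_colon : Stable C (colon C N) := fun m n c hc u hu j v hv => by
  have := C.mul_mem m (n + j) c hc _ (hu j v hv)
  rw [← add_assoc] at this
  simpa [Finset.mul_sum, mul_assoc] using this

theorem Stable.closed (hN : Stable C N) : Closed C.η C.ζ N where
  mono n v hv := by simpa [add_comm] using hN 1 n 1 C.one_mem v hv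
  eta n v hv := by simpa [add_comm] using hN 1 n C.η C.η_mem v hv
  zeta n v hv := by simpa [add_comm] using hN 1 n C.ζ C.ζ_mem v hv

theorem one_mem_R0 : (1 : K) ∈ C.R 0 := by
  rw [C.R_zero]
  exact subset_span rfl

/-- The trace dual of a stable family is the shifted colon family. -/
theorem mem_dualFam_iff (hω : OmegaData C a w) (hN : Stable C N) {n : ℤ} {u : Fin r → K} :
    u ∈ dualFam C.η C.ζ N n ↔ w⁻¹ • u ∈ colon C N (n + a) := by
  constructor
  · intro hu j v hv
    have hs : (fun _ : Fin 1 => ∑ i, u i * v i) ∈ C.omega (n + j) := by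
      intro m c hc
      have h := hu (m + j) (c 0 • v) (hN m j (c 0) hc v hv)
      rw [show n + (m + j) - 3 = n + j + m - 3 by ring] at h
      have e : (∑ _l : Fin 1, (∑ i, u i * v i) * c 0) = ∑ i, u i * (c 0 • v) i := by
        simp only [Finset.univ_unique, Finset.sum_singleton, Pi.smul_apply, smul_eq_mul,
          Finset.sum_mul]
        exact Finset.sum_congr rfl fun i _ => by ring
      rw [← e] at h
      simpa using h
    rw [hω.2] at hs
    obtain ⟨c, hc, hcs⟩ := hs
    have h0 : w * c 0 = ∑ i, u i * v i := congrFun hcs 0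
    have : ∑ i, (w⁻¹ • u) i * v i = c 0 := by
      simp only [Pi.smul_apply, smul_eq_mul, mul_assoc, ← Finset.mul_sum, ← h0]
      rw [← mul_assoc, inv_mul_cancel₀ hω.1, one_mul]
    rw [this, show n + a + j = n + j + a by ring]
    exact hc
  · intro hu j v hv
    have hs : (fun _ : Fin 1 => ∑ i, u i * v i) ∈ C.omega (n + j) := by
      rw [hω.2]
      refine ⟨fun _ => ∑ i, (w⁻¹ • u) i * v i, ?_, ?_⟩
      · show ∑ i, (w⁻¹ • u) i * v i ∈ C.R (n + j + a)
        rw [show n + j + a = n + a + j by ring]
        exact hu j v hv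
      · funext l
        show w * ∑ i, (w⁻¹ • u) i * v i = ∑ i, u i * v i
        simp only [Pi.smul_apply, smul_eq_mul, mul_assoc, ← Finset.mul_sum]
        rw [← mul_assoc, mul_inv_cancel₀ hω.1, one_mul]
    have h := hs 0 (fun _ => 1) (one_mem_R0 (C := C))
    simpa using h

theorem colon_eq_map (hω : OmegaData C a w) (hN : Stable C N) (n : ℤ) :
    colon C N n = (dualFam C.η C.ζ N (n - a)).map (smulE k w⁻¹) := by
  ext u
  constructor
  · intro hu
    refine ⟨w • u, ?_, ?_⟩
    · show w • u ∈ dualFam C.η C.ζ N (n - a)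
      rw [mem_dualFam_iff hω hN, smul_smul, inv_mul_cancel₀ hω.1, one_smul, sub_add_cancel]
      exact hu
    · show w⁻¹ • w • u = u
      rw [smul_smul, inv_mul_cancel₀ hω.1, one_smul]
  · rintro ⟨v, hv, rfl⟩
    have := (mem_dualFam_iff hω hN).1 hv
    rwa [sub_add_cancel] at this

theorem smulE_injective {c : K} (hc : c ≠ 0) : Function.Injective (smulE (ι := Fin r) k c) :=
  fun _ _ h => smul_right_injective (Fin r → K) hc h

theorem finrank_colon (hω : OmegaData C a w) (hN : Stable C N) (n : ℤ) :
    finrank k (colon C N n) = finrank k (dualFam C.η C.ζ N (n - a)) := by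
  rw [colon_eq_map hω hN n]
  exact (Submodule.equivMapOfInjective _ (smulE_injective (inv_ne_zero hω.1)) _).finrank_eq.symm

/-- Scaling and shifting preserves finitely generated saturated families. -/
theorem Fam.twist (hN : Fam C.η C.ζ N) {c : K} (hc : c ≠ 0) (b : ℤ) :
    Fam C.η C.ζ fun n => (N (n - b)).map (smulE k c) where
  mono n := Submodule.map_mono (hN.mono_le (by omega))
  eta n := by
    rintro _ ⟨v, hv, rfl⟩
    refine ⟨C.η • v, ?_, smul_comm c C.η v⟩
    have := hN.eta _ v hv
    rwa [show n - b + 1 = n + 1 - b by ring] at this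
  zeta n := by
    rintro _ ⟨v, hv, rfl⟩
    refine ⟨C.ζ • v, ?_, smul_comm c C.ζ v⟩
    have := hN.zeta _ v hv
    rwa [show n - b + 1 = n + 1 - b by ring] at this
  fd n := by
    have := hN.fd (n - b)
    infer_instance
  below := by
    obtain ⟨n₀, h⟩ := hN.below
    exact ⟨n₀ + b, fun n hn => by rw [h _ (by omega), Submodule.map_bot]⟩
  sat n := by
    rintro _ ⟨v, hv, rfl⟩ ⟨u, hu, hue⟩
    have : u = C.η • v := smulE_injective hc (hue.trans (smul_comm C.η c v))
    rw [show n + 1 - b = n - b + 1 by ring] at hv hu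
    exact ⟨v, hN.sat _ v hv (this ▸ hu), rfl⟩
  gen := by
    obtain ⟨n₁, h⟩ := hN.gen
    refine ⟨n₁ + b, fun n hn => ?_⟩
    rw [show n + 1 - b = n - b + 1 by ring, h _ (by omega), Submodule.map_sup, Submodule.map_sup,
      ← Submodule.map_comp, ← Submodule.map_comp, ← Submodule.map_comp, ← Submodule.map_comp]
    rw [show (smulE k c).comp (smulE k C.η) = (smulE (ι := Fin r) k C.η).comp (smulE k c) from
      LinearMap.ext fun v => smul_comm c C.η v,
      show (smulE k c).comp (smulE k C.ζ) = (smulE (ι := Fin r) k C.ζ).comp (smulE k c) from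
      LinearMap.ext fun v => smul_comm c C.ζ v]
  spanE := by
    rw [eq_top_iff]
    rintro v -
    have hv : c⁻¹ • v ∈ span (ratField k C.η C.ζ) (⋃ n, (N n : Set (Fin r → K))) := by
      rw [hN.spanE]; exact mem_top
    have h2 := Submodule.mem_map_of_mem
      (f := DistribSMul.toLinearMap (ratField k C.η C.ζ) (Fin r → K) c) hv
    rw [Submodule.map_span] at h2
    have hcv : c • c⁻¹ • v = v := by rw [smul_smul, mul_inv_cancel₀ hc, one_smul]
    rw [show v = DistribSMul.toLinearMap (ratField k C.η C.ζ) (Fin r → K) c (c⁻¹ • v) from hcv.symm]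
    refine span_mono ?_ h2
    rintro _ ⟨x, hx, rfl⟩
    obtain ⟨n, hn⟩ := Set.mem_iUnion.1 hx
    refine Set.mem_iUnion.2 ⟨n + b, x, ?_, rfl⟩
    rwa [add_sub_cancel_right]

theorem finiteDimensional_ratField (C : Cone k K) : FiniteDimensional (ratField k C.η C.ζ) K :=
  Module.finite_of_finrank_pos (by rw [C.finrank_K]; exact C.d_pos)

theorem fam_colon (hω : OmegaData C a w) (hN : Stable C N) (hF : Fam C.η C.ζ N) :
    Fam C.η C.ζ (colon C N) := by
  have := finiteDimensional_ratField C
  have := C.sep
  have h := Fam.twist (Hilb.Fam.dual C.indep hF) (inv_ne_zero hω.1) a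
  rw [show colon C N = fun n => (dualFam C.η C.ζ N (n - a)).map (smulE k w⁻¹) from
    funext (colon_eq_map hω hN)]
  exact h

/-- The double trace dual is the double colon. -/
theorem dual_dual_eq (hω : OmegaData C a w) (hN : Stable C N) (n : ℤ) :
    dualFam C.η C.ζ (dualFam C.η C.ζ N) n = colon C (colon C N) n := by
  have hd : Stable C (dualFam C.η C.ζ N) := fun m j c hc u hu => by
    rw [mem_dualFam_iff hω hN] at hu ⊢
    rw [smul_comm, add_assoc]
    exact stable_colon m (j + a) c hc _ hu
  ext u
  rw [mem_dualFam_iff hω hd]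
  constructor
  · intro h j v hv
    have hv' : w • v ∈ dualFam C.η C.ζ N (j - a) := by
      rw [mem_dualFam_iff hω hN, smul_smul, inv_mul_cancel₀ hω.1, one_smul, sub_add_cancel]
      exact hv
    have := h (j - a) _ hv'
    rw [show n + a + (j - a) = n + j by ring] at this
    convert this using 1
    refine Finset.sum_congr rfl fun i _ => ?_
    simp only [Pi.smul_apply, smul_eq_mul]
    field_simp [hω.1]
  · intro h j v hv
    have := h (j + a) _ ((mem_dualFam_iff hω hN).1 hv)
    rw [show n + a + j = n + (j + a) by ring]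
    convert this using 1
    refine Finset.sum_congr rfl fun i _ => ?_
    simp only [Pi.smul_apply, smul_eq_mul]
    ring

theorem isMod_stable (hN : C.IsMod N) : Stable C N := hN.smul_mem

theorem colon_colon_of_isMod (hω : OmegaData C a w) (hN : C.IsMod N) (n : ℤ) :
    colon C (colon C N) n = N n := by
  rw [← dual_dual_eq hω hN.smul_mem, hN.reflexive]

theorem fam_of_isMod (hN : C.IsMod N) : Fam C.η C.ζ N where
  toClosed := Stable.closed hN.smul_mem
  fd := hN.fd
  below := hN.below
  gen := hN.gen
  sat n v hv hv' := by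
    rw [← hN.reflexive] at hv hv' ⊢
    exact dualFam_sat C.indep hv hv'
  spanE := by
    rw [eq_top_iff]
    rintro v -
    have hv : v ∈ span K (⋃ n, (N n : Set (Fin r → K))) := by rw [hN.span_top]; exact mem_top
    induction hv using Submodule.span_induction with
    | mem x hx => exact subset_span hx
    | zero => exact zero_mem _
    | add x y _ _ hx hy => exact add_mem hx hy
    | smul c x hxK hx =>
      clear hxK
      have hc : c ∈ span (ratField k C.η C.ζ) (C.R C.g : Set K) := by rw [C.span_top]; exact mem_top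
      induction hx using Submodule.span_induction with
      | mem y hy =>
        obtain ⟨n, hn⟩ := Set.mem_iUnion.1 hy
        induction hc using Submodule.span_induction with
        | mem b hb => exact subset_span (Set.mem_iUnion.2 ⟨_, hN.smul_mem _ _ b hb y hn⟩)
        | zero => simp
        | add b b' _ _ hb hb' => rw [add_smul]; exact add_mem hb hb'
        | smul t b _ hb => rw [smul_assoc]; exact Submodule.smul_mem _ t hb
      | zero => simp
      | add y z _ _ hy hz => rw [smul_add]; exact add_mem hy hz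
      | smul t y _ hy => rw [smul_comm]; exact Submodule.smul_mem _ t hy

/-- A saturated finitely generated stable family equal to its double colon is a module. -/
theorem isMod_of_fam (hω : OmegaData C a w) (hs : Stable C N) (hF : Fam C.η C.ζ N)
    (hr : ∀ n, colon C (colon C N) n = N n) : C.IsMod N where
  smul_mem := hs
  fd := hF.fd
  below := hF.below
  gen := hF.gen
  span_top := by
    rw [eq_top_iff]
    rintro v -
    have hv : v ∈ span (ratField k C.η C.ζ) (⋃ n, (N n : Set (Fin r → K))) := by
      rw [hF.spanE]; exact mem_top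
    induction hv using Submodule.span_induction with
    | mem x hx => exact subset_span hx
    | zero => exact zero_mem _
    | add x y _ _ hx hy => exact add_mem hx hy
    | smul t x _ hx =>
      rw [← algebraMap_smul K t x]
      exact Submodule.smul_mem _ _ hx
  reflexive n := by rw [dual_dual_eq hω hs, hr]

theorem isMod_colon (hω : OmegaData C a w) (hs : Stable C N) (hF : Fam C.η C.ζ N) :
    C.IsMod (colon C N) :=
  isMod_of_fam hω stable_colon (fam_colon hω hs hF) fun n => colon_colon_colon n

/-- Eventually `dim L n = α x² + β x + γ` with `x = n - a / 2`. -/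
def Quad {W : Type} [AddCommGroup W] [Module k W] (a : ℤ) (L : ℤ → Submodule k W) (α β γ : ℚ) :
    Prop :=
  ∀ᶠ n : ℤ in atTop, (finrank k (L n) : ℚ) =
    α * ((n : ℚ) - (a : ℚ) / 2) ^ 2 + β * ((n : ℚ) - (a : ℚ) / 2) + γ

theorem quad_of_hasPoly {D e c : ℚ} (h : HasPoly N D e c) :
    Quad a N (D / 2) (D * a / 2 + 3 * D / 2 + e)
      (D * (((a : ℚ) / 2 + 2) * ((a : ℚ) / 2 + 1)) / 2 + e * ((a : ℚ) / 2 + 1) + c) :=
  h.mono fun n hn => by rw [hn]; ring

theorem finrank_pi_ratField (C : Cone k K) (r : ℕ) :
    finrank (ratField k C.η C.ζ) (Fin r → K) = C.d * r := by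
  have := finiteDimensional_ratField C
  rw [Module.finrank_pi_fintype]
  simp [C.finrank_K, mul_comm]

theorem exists_quad_fam (hF : Fam C.η C.ζ N) :
    ∃ β γ : ℚ, Quad a N (((C.d * r : ℕ) : ℚ) / 2) β γ := by
  have := finiteDimensional_ratField C
  have := C.sep
  obtain ⟨e, c, h, -⟩ := exists_hasPoly C.indep hF
  rw [finrank_pi_ratField] at h
  exact ⟨_, _, quad_of_hasPoly h⟩

/-- The Hilbert polynomial of the colon of a reflexive family is the reflected one. -/
theorem quad_colon (hω : OmegaData C a w) (hs : Stable C N) (hF : Fam C.η C.ζ N)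
    (hr : ∀ n, colon C (colon C N) n = N n) :
    ∃ β γ : ℚ, Quad a N (((C.d * r : ℕ) : ℚ) / 2) β γ ∧
      Quad a (colon C N) (((C.d * r : ℕ) : ℚ) / 2) (-β) γ := by
  have := finiteDimensional_ratField C
  have := C.sep
  obtain ⟨e, c, h, -⟩ := exists_hasPoly C.indep hF
  have hd := dual_hasPoly C.indep hF (fun n => le_of_eq ((dual_dual_eq hω hs n).trans (hr n))) rfl h
  rw [finrank_pi_ratField] at h hd
  refine ⟨_, _, quad_of_hasPoly h, ?_⟩
  obtain ⟨n₀, hn₀⟩ := eventually_atTop.1 hd
  refine eventually_atTop.2 ⟨n₀ + a, fun n hn => ?_⟩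
  rw [finrank_colon hω hs, hn₀ (n - a) (by omega)]
  push_cast
  ring

end Vale.Agent.P190.Bound
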