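import Vale.Agent.P190.Bound.MinpolyDegree
import Vale.Agent.P190.Example.Extend

/-!
P190: the two derivations of a cone, their common kernel in characteristic `p`, a multiplier of
bounded degree, and descent of subspaces stable under the derivations.
-/

namespace Vale.Agent.P190.Bound

open Submodule Hilb

variable {k K : Type} [Field k] [Field K] [Algebra k K]

section Construction

variable {η ζ : K}

omit [Field K] in
theorem range_pair : Set.range ![η, ζ] = ({η, ζ} : Set K) := by
  ext
  simp [eq_comm, or_comm]

/-- Derivations of `K` extending the partial derivatives of `k(η, ζ)`. -/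
theorem exists_derivations (hind : AlgebraicIndependent k ![η, ζ])
    [FiniteDimensional (ratField k η ζ) K] [Algebra.IsSeparable (ratField k η ζ) K] :
    ∃ D : Fin 2 → Derivation k K K, ∀ j l, D j (![η, ζ] l) = if l = j then 1 else 0 := by
  classical
  let F := ratField k η ζ
  let e : FractionRing (MvPolynomial (Fin 2) k) ≃ₐ[k] F :=
    hind.aevalEquivField.trans (IntermediateField.equivOfEq (by rw [range_pair]))
  let _ : Algebra (MvPolynomial (Fin 2) k) F :=
    ((e : FractionRing (MvPolynomial (Fin 2) k) →ₐ[k] F).comp
      (IsScalarTower.toAlgHom k (MvPolynomial (Fin 2) k) _)).toRingHom.toAlgebra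
  have hFr : IsFractionRing (MvPolynomial (Fin 2) k) F :=
    IsLocalization.isLocalization_of_algEquiv (nonZeroDivisors (MvPolynomial (Fin 2) k))
      (AlgEquiv.ofRingEquiv (f := e.toRingEquiv) fun _ => rfl)
  let _ : Algebra (MvPolynomial (Fin 2) k) K := (ev (k := k) η ζ).toRingHom.toAlgebra
  have htow : IsScalarTower (MvPolynomial (Fin 2) k) F K :=
    IsScalarTower.of_algebraMap_eq fun s => by
      show ev (k := k) η ζ s = _
      exact (hind.aevalEquivField_algebraMap_apply_coe s).symm
  have hk : IsScalarTower k (MvPolynomial (Fin 2) k) K :=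
    IsScalarTower.of_algebraMap_eq fun c => ((ev (k := k) η ζ).commutes c).symm
  have : Algebra.FormallyEtale (MvPolynomial (Fin 2) k) K :=
    Example.formallyEtale_of_fractions (MvPolynomial (Fin 2) k) F K
  let d : Fin 2 → Derivation k (MvPolynomial (Fin 2) k) K := fun j =>
    MvPolynomial.mkDerivation k fun l => if l = j then 1 else 0
  refine ⟨fun j => Example.extendDer (d j), fun j l => ?_⟩
  have h := Example.extendDer_algebraMap (d j) (MvPolynomial.X l)
  rw [show algebraMap (MvPolynomial (Fin 2) k) K (MvPolynomial.X l) = ![η, ζ] l from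
    MvPolynomial.aeval_X _ _] at h
  rw [h]
  exact MvPolynomial.mkDerivation_X _ _ _

end Construction

section Derivs

variable {η ζ : K} {D : Fin 2 → Derivation k K K}
  (hD : ∀ j l, D j (![η, ζ] l) = if l = j then 1 else 0)
include hD

theorem deriv_ev (j : Fin 2) (P : MvPolynomial (Fin 2) k) :
    D j (ev η ζ P) = ev η ζ (MvPolynomial.pderiv j P) := by
  induction P using MvPolynomial.induction_on with
  | C c => simp [ev]
  | add p q hp hq => simp [map_add, hp, hq]
  | mul_X p l hp =>
    rw [map_mul, Derivation.leibniz, hp, MvPolynomial.pderiv_mul, map_add, map_mul, map_mul]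
    simp only [ev, MvPolynomial.aeval_X, smul_eq_mul]
    rw [hD]
    rcases eq_or_ne l j with h | h
    · subst h
      simp
      ring
    · simp [h, MvPolynomial.pderiv_X_of_ne h]
      ring

theorem deriv_polySpace (j : Fin 2) {m : ℤ} {c : K} (hc : c ∈ polySpace (k := k) η ζ m) :
    D j c ∈ polySpace (k := k) η ζ (m - 1) := by
  induction hc using Submodule.span_induction with
  | mem x hx =>
    obtain ⟨a, b, hab, rfl⟩ := hx
    rw [Derivation.leibniz, Derivation.leibniz_pow, Derivation.leibniz_pow]
    have h0 := hD j 0
    have h1 := hD j 1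
    simp only [Matrix.cons_val_zero, Matrix.cons_val_one, Matrix.cons_val_fin_one] at h0 h1
    rw [h0, h1]
    simp only [smul_eq_mul]
    refine add_mem ?_ ?_
    · rcases b with _ | b
      · simp
      · rw [mul_smul_comm]
        refine nsmul_mem ?_ _
        split_ifs with h
        · rw [mul_one]
          exact mem_polySpace_of (by push_cast at hab ⊢; omega)
        · simp
    · rcases a with _ | a
      · simp
      · rw [mul_smul_comm]
        refine nsmul_mem ?_ _
        split_ifs with h
        · rw [mul_one, mul_comm]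
          exact mem_polySpace_of (by push_cast at hab ⊢; omega)
        · simp
  | zero => simp
  | add x y _ _ hx hy => rw [map_add]; exact add_mem hx hy
  | smul t x _ hx => rw [Derivation.map_smul]; exact Submodule.smul_mem _ _ hx

theorem deriv_ratField (j : Fin 2) {x : K} (hx : x ∈ ratField k η ζ) :
    D j x ∈ ratField k η ζ := by
  obtain ⟨n, q, hq, hq0, hqx⟩ := exists_denom hx
  have e : x = q * x / q := by field_simp
  rw [e, Derivation.leibniz_div]
  simp only [smul_eq_mul]
  exact mul_mem (pow_mem (inv_mem (polySpace_le_ratField hq)) _)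
    (sub_mem (mul_mem (polySpace_le_ratField hq) (polySpace_le_ratField (deriv_polySpace hD j hqx)))
      (mul_mem (polySpace_le_ratField hqx) (polySpace_le_ratField (deriv_polySpace hD j hq))))

end Derivs

section Kernel

variable {η ζ : K} (p : ℕ) [Fact p.Prime] [CharP k p]

theorem exists_root_of_pderiv_eq_zero [IsAlgClosed k] (P : MvPolynomial (Fin 2) k)
    (h : ∀ j, MvPolynomial.pderiv j P = 0) : ∃ Q : MvPolynomial (Fin 2) k, Q ^ p = P := by
  classical
  have hp : p ≠ 0 := (Fact.out : p.Prime).ne_zero
  choose root hroot using fun c : k => IsAlgClosed.exists_pow_nat_eq c (Nat.pos_of_ne_zero hp)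
  have hdvd : ∀ d ∈ P.support, ∀ j, p ∣ d j := by
    intro d hd j
    by_contra hj
    have hd1 : 1 ≤ d j := Nat.one_le_iff_ne_zero.2 fun h0 => hj (by simp [h0])
    have h2 := congrArg (MvPolynomial.coeff (d - Finsupp.single j 1)) (h j)
    rw [MvPolynomial.coeff_zero, P.as_sum, map_sum, MvPolynomial.coeff_sum,
      Finset.sum_eq_single_of_mem d hd] at h2
    · rw [MvPolynomial.pderiv_monomial, MvPolynomial.coeff_monomial, if_pos rfl] at h2
      rcases mul_eq_zero.1 h2 with h3 | h3
      · exact MvPolynomial.mem_support_iff.1 hd h3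
      · exact hj ((CharP.cast_eq_zero_iff k p _).1 h3)
    · intro d' _ hne
      rw [MvPolynomial.pderiv_monomial, MvPolynomial.coeff_monomial]
      split_ifs with he
      · rcases Nat.eq_zero_or_pos (d' j) with h0 | h0
        · simp [h0]
        · exfalso
          apply hne
          ext l
          have := DFunLike.congr_fun he l
          rcases eq_or_ne l j with rfl | hl
          · simp at this
            omega
          · simpa [hl.symm] using this
      · rfl
  refine ⟨∑ d ∈ P.support, MvPolynomial.monomial (d.mapRange (· / p) (by simp)) (root (P.coeff d)),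
    ?_⟩
  rw [sum_pow_char]
  conv_rhs => rw [P.as_sum]
  refine Finset.sum_congr rfl fun d hd => ?_
  have hd' : p • d.mapRange (· / p) (by simp) = d := by
    ext j
    simp [Nat.mul_div_cancel' (hdvd d hd j)]
  rw [MvPolynomial.monomial_pow, hroot, hd']

variable (hind : AlgebraicIndependent k ![η, ζ]) {D : Fin 2 → Derivation k K K}
  (hD : ∀ j l, D j (![η, ζ] l) = if l = j then 1 else 0)

include hind hD in
theorem exists_root_ratField [IsAlgClosed k] [CharP K p] {x : K} (hx : x ∈ ratField k η ζ)
    (h : ∀ j, D j x = 0) : ∃ v ∈ ratField k η ζ, v ^ p = x := by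
  obtain ⟨n, q, hq, hq0, hqx⟩ := exists_denom hx
  obtain ⟨a, -, ha⟩ := (Hilb.mem_polySpace (m := n)).1 hqx
  obtain ⟨b, -, hb⟩ := (Hilb.mem_polySpace (m := n)).1 hq
  obtain ⟨Q, hQ⟩ := exists_root_of_pderiv_eq_zero p (a * b ^ (p - 1)) fun j => by
    refine algebraicIndependent_iff_injective_aeval.1 hind ?_
    rw [show MvPolynomial.aeval ![η, ζ] = ev (k := k) η ζ from rfl, ← deriv_ev hD, map_zero,
      map_mul, map_pow, ha, hb, mul_assoc, mul_comm x, ← mul_assoc, ← pow_succ',
      Nat.sub_add_cancel (Fact.out : p.Prime).one_le, Derivation.leibniz, h j,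
      Derivation.leibniz_pow]
    simp [CharP.cast_eq_zero]
  refine ⟨ev η ζ Q / q, div_mem (polySpace_le_ratField
    ((Hilb.mem_polySpace (m := Q.totalDegree)).2 ⟨Q, le_rfl, rfl⟩)) (polySpace_le_ratField hq), ?_⟩
  rw [div_pow, ← map_pow, hQ, map_mul, map_pow, ha, hb]
  field_simp
  rw [mul_assoc, mul_comm x, ← mul_assoc, ← pow_succ',
    Nat.sub_add_cancel (Fact.out : p.Prime).one_le, mul_comm]

include hind hD in
/-- The common kernel of the derivations consists of `p`-th powers. -/
theorem exists_root_of_deriv_eq_zero [IsAlgClosed k] [CharP K p]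
    [FiniteDimensional (ratField k η ζ) K] [Algebra.IsSeparable (ratField k η ζ) K] {u : K}
    (h : ∀ j, D j u = 0) : ∃ v, v ^ p = u := by
  classical
  set F := ratField k η ζ
  set m := minpoly F u with hm
  set n := m.natDegree with hn
  have hu : IsIntegral F u := IsIntegral.of_finite F u
  have h0 : ∑ i ∈ Finset.range (n + 1), ((m.coeff i : F) : K) * u ^ i = 0 := by
    have h := minpoly.aeval F u
    rw [Polynomial.aeval_eq_sum_range, ← hm, ← hn] at h
    simpa [IntermediateField.smul_def] using h
  have hlead : m.coeff n = 1 := (minpoly.monic hu).coeff_natDegree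
  have hconst : ∀ i, ∀ j, D j ((m.coeff i : F) : K) = 0 := by
    intro i j
    rcases lt_trichotomy i n with hi | rfl | hi
    · set q : Polynomial F := ∑ l ∈ Finset.range n,
        Polynomial.monomial l ⟨D j ((m.coeff l : F) : K), deriv_ratField hD j (m.coeff l).2⟩ with hq
      have hqu : Polynomial.aeval u q = 0 := by
        have h1 := congrArg (D j) h0
        rw [map_sum, map_zero, Finset.sum_range_succ] at h1
        rw [hq, map_sum, ← h1, hlead]
        simp only [Derivation.leibniz, Derivation.leibniz_pow, h j, Polynomial.aeval_monomial,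
          smul_eq_mul]
        simp [mul_comm]
      have hq0 : q = 0 := by
        by_contra hne
        have h2 := Polynomial.natDegree_le_of_dvd (minpoly.dvd F u hqu) hne
        rw [← hm, ← hn] at h2
        have h3 : q.natDegree ≤ n - 1 :=
          Polynomial.natDegree_sum_le_of_forall_le _ _ fun l hl =>
            (Polynomial.natDegree_monomial_le _).trans
              (by have := Finset.mem_range.1 hl; omega)
        omega
      have h4 := congrArg (fun f => Polynomial.coeff f i) hq0
      simp only [hq, Polynomial.finsetSum_coeff, Polynomial.coeff_zero] at h4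
      rw [Finset.sum_eq_single_of_mem i (Finset.mem_range.2 hi)
        (fun l _ hl => by simp [Polynomial.coeff_monomial, hl])] at h4
      simpa using congrArg Subtype.val h4
    · rw [hlead]; simp
    · rw [Polynomial.coeff_eq_zero_of_natDegree_lt hi]; simp
  choose v hvF hv using fun i => exists_root_ratField p hind hD (m.coeff i).2 (hconst i)
  let L := AlgebraicClosure K
  let φ := algebraMap K L
  obtain ⟨w, hw⟩ := IsAlgClosed.exists_pow_nat_eq (φ u) (Fact.out : p.Prime).pos
  have : CharP L p := charP_of_injective_algebraMap φ.injective p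
  set g : Polynomial K := ∑ i ∈ Finset.range (n + 1), Polynomial.monomial i (v i) with hg
  have hgw : Polynomial.aeval w g = 0 := by
    apply pow_eq_zero_iff (Fact.out : p.Prime).ne_zero |>.1
    rw [hg, map_sum, sum_pow_char, ← map_zero φ, ← h0, map_sum]
    refine Finset.sum_congr rfl fun i _ => ?_
    rw [Polynomial.aeval_monomial, mul_pow, ← pow_mul, mul_comm i p, pow_mul, hw, ← map_pow φ,
      map_mul, map_pow φ u, ← hv i, map_pow]
  have hgw' : Polynomial.aeval w g.derivative ≠ 0 := by
    intro hz
    have h1 : Polynomial.aeval u (Polynomial.derivative m) ≠ 0 :=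
      (Algebra.IsSeparable.isSeparable F u).aeval_derivative_ne_zero (minpoly.aeval F u)
    apply h1
    apply φ.injective
    rw [map_zero, ← zero_pow (Fact.out : p.Prime).ne_zero, ← hz, hg, map_sum, map_sum,
      sum_pow_char, m.as_sum_range' (n + 1) (Nat.lt_succ_self _), map_sum, map_sum, map_sum]
    refine Finset.sum_congr rfl fun i _ => ?_
    rw [Polynomial.derivative_monomial, Polynomial.derivative_monomial, Polynomial.aeval_monomial,
      Polynomial.aeval_monomial, mul_pow, ← pow_mul w, mul_comm (i - 1) p, pow_mul w, hw,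
      ← map_pow φ u]
    have hnat : ((i : K)) ^ p = (i : K) := by
      rw [← frobenius_def, map_natCast]
    rw [← map_pow φ (v i * (i : K)), mul_pow, hnat, hv i, map_mul (algebraMap F K), map_natCast,
      map_mul φ, map_mul φ, map_mul φ]
    rfl
  set t := minpoly K w with ht
  have hwi : IsIntegral K w := (Algebra.IsAlgebraic.isAlgebraic w).isIntegral
  have htp : t ∣ (Polynomial.X ^ p - Polynomial.C u) := minpoly.dvd K w (by simp [hw, φ])
  have hsplit : (Polynomial.X ^ p - Polynomial.C u).map φ =
      (Polynomial.X - Polynomial.C w) ^ p := by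
    rw [sub_pow_char, ← map_pow, hw]
    simp
  obtain ⟨j, hj, hta⟩ := (dvd_prime_pow (Polynomial.prime_X_sub_C w) p).1
    (hsplit ▸ Polynomial.map_dvd φ htp)
  have htd : t.natDegree = j := by
    have h1 := Polynomial.natDegree_eq_of_degree_eq
      (Polynomial.degree_eq_degree_of_associated hta)
    rwa [Polynomial.natDegree_map, Polynomial.natDegree_pow, Polynomial.natDegree_X_sub_C,
      mul_one] at h1
  have hj1 : j ≤ 1 := by
    by_contra hcon
    apply hgw'
    have h2 : (Polynomial.X - Polynomial.C w) ^ 2 ∣ g.map φ :=
      ((pow_dvd_pow _ (by omega)).trans hta.symm.dvd).trans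
        (Polynomial.map_dvd φ (minpoly.dvd K w hgw))
    obtain ⟨s, hs⟩ := h2
    rw [Polynomial.aeval_def, ← Polynomial.eval_map, ← Polynomial.derivative_map, hs]
    simp [Polynomial.derivative_mul, Polynomial.derivative_pow]
  have hj0 : t.natDegree = 1 := le_antisymm (htd ▸ hj1) (minpoly.natDegree_pos hwi)
  obtain ⟨x, hx⟩ := (minpoly.natDegree_eq_one_iff).1 hj0
  exact ⟨x, φ.injective (by rw [map_pow, hx, hw])⟩

end Kernel

end Vale.Agent.P190.Bound
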