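import Vale.Agent.P190.Bound.Deriv

/-!
P190: the derivations of a cone send the ring into itself after multiplication by an element of
degree bounded in terms of `d` and `g`.
-/

namespace Vale.Agent.P190.Bound

open Submodule Hilb

variable {k K : Type} [Field k] [Field K] [Algebra k K]

theorem det_mem_polySpace {η ζ : K} {ι : Type} [Fintype ι] [DecidableEq ι] {m : ℕ}
    (M : Matrix ι ι K) (hM : ∀ a b, M a b ∈ polySpace (k := k) η ζ m) :
    M.det ∈ polySpace (k := k) η ζ ((Fintype.card ι * m : ℕ) : ℤ) := by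
  classical
  rw [Matrix.det_apply']
  refine sum_mem fun σ _ => ?_
  have hprod : ∀ s : Finset ι, ∏ a ∈ s, M (σ a) a ∈
      polySpace (k := k) η ζ ((s.card * m : ℕ) : ℤ) := by
    intro s
    induction s using Finset.induction with
    | empty => simpa using one_mem_polySpace le_rfl
    | @insert a s ha ih =>
      rw [Finset.prod_insert ha, Finset.card_insert_of_notMem ha, Nat.add_mul, one_mul, add_comm,
        Nat.cast_add]
      exact mul_mem_polySpace (hM _ _) ih
  rcases Int.units_eq_one_or (Equiv.Perm.sign σ) with h | h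
  · simpa [h] using hprod Finset.univ
  · simpa [h] using hprod Finset.univ

namespace Cone

variable (C : Cone k K)

theorem mono {m n : ℤ} (h : m ≤ n) : C.R m ≤ C.R n := by
  induction n, h using Int.leInduction with
  | base => exact le_rfl
  | succ n _ ih => exact ih.trans (Ring3.mono_succ C.toRing3 n)

theorem finiteDimensional : FiniteDimensional (ratField k C.η C.ζ) K :=
  FiniteDimensional.of_finrank_pos (by rw [C.finrank_K]; exact C.d_pos)

theorem pow_mem {m : ℕ} {b : K} (hb : b ∈ C.R m) (i : ℕ) : b ^ i ∈ C.R ((i * m : ℕ) : ℤ) := by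
  induction i with
  | zero => simp [C.R_zero]
  | succ i ih =>
    rw [pow_succ, Nat.succ_mul, Nat.cast_add]
    exact C.mul_mem _ _ _ ih _ hb

theorem natDegree_minpoly_le (b : K) : (minpoly (ratField k C.η C.ζ) b).natDegree ≤ C.d := by
  have := finiteDimensional C
  exact (minpoly.natDegree_le b).trans C.finrank_K.le

theorem trace_mem {m : ℕ} {b : K} (hb : b ∈ C.R m) :
    ((Algebra.trace (ratField k C.η C.ζ) K b : ratField k C.η C.ζ) : K) ∈
      polySpace (k := k) C.η C.ζ (m : ℤ) := by
  have := finiteDimensional C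
  rw [trace_eq_finrank_mul_minpoly_nextCoeff]
  have hpos := minpoly.natDegree_pos (IsIntegral.of_finite (ratField k C.η C.ζ) b)
  have h := Ring3.minpoly_coeff_mem C.toRing3 hb
    ((minpoly (ratField k C.η C.ζ) b).natDegree - 1)
  rw [show (minpoly (ratField k C.η C.ζ) b).natDegree -
    ((minpoly (ratField k C.η C.ζ) b).natDegree - 1) = 1 by omega, one_mul] at h
  rw [Polynomial.nextCoeff_of_natDegree_pos hpos]
  rw [← nsmul_eq_mul]
  simp only [AddSubmonoidClass.coe_nsmul, IntermediateField.coe_neg]
  exact nsmul_mem (neg_mem h) _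

/-- A non-zero multiple of degree at most `d ^ 2 m` of a non-zero element of degree `m`. -/
theorem exists_norm {m : ℕ} {y : K} (hy : y ∈ C.R m) (hy0 : y ≠ 0) :
    ∃ c z : K, c ≠ 0 ∧ c ∈ polySpace (k := k) C.η C.ζ ((C.d * m : ℕ) : ℤ) ∧
      z ∈ C.R ((C.d * m : ℕ) : ℤ) ∧ c = z * y := by
  have := finiteDimensional C
  set F := ratField k C.η C.ζ
  set P := minpoly F y with hP
  have hyi : IsIntegral F y := IsIntegral.of_finite F y
  have hdeg := natDegree_minpoly_le C y
  refine ⟨((P.coeff 0 : F) : K),
    -∑ i ∈ Finset.range P.natDegree, ((P.coeff (i + 1) : F) : K) * y ^ i, ?_, ?_, ?_, ?_⟩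
  · exact fun h => minpoly.coeff_zero_ne_zero hyi hy0 (Subtype.ext h)
  · exact polySpace_mono (Int.ofNat_le.2 (Nat.mul_le_mul_right m ((Nat.sub_le _ _).trans hdeg)))
      (Ring3.minpoly_coeff_mem C.toRing3 hy 0)
  · refine neg_mem (sum_mem fun i hi => ?_)
    have h := Ring3.poly_mul_mem C.toRing3 (Ring3.minpoly_coeff_mem C.toRing3 hy (i + 1))
      (pow_mem C hy i)
    refine mono C ?_ h
    have hi' := Finset.mem_range.1 hi
    rw [← Nat.cast_add, Int.ofNat_le, ← Nat.add_mul]
    exact Nat.mul_le_mul_right m (by rw [← hP] at hdeg ⊢; omega)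
  · have h := minpoly.aeval F y
    rw [Polynomial.aeval_eq_sum_range, ← hP, Finset.sum_range_succ'] at h
    simp only [IntermediateField.smul_def, smul_eq_mul, pow_zero, mul_one] at h
    rw [eq_neg_of_add_eq_zero_right h, neg_mul, Finset.sum_mul]
    congr 1
    exact Finset.sum_congr rfl fun i _ => by ring

variable {D : Fin 2 → Derivation k K K}
  (hD : ∀ j l, D j (![C.η, C.ζ] l) = if l = j then 1 else 0)
include hD

/-- Each element of degree `m` has a multiplier of degree at most `d ^ 2 m + d m`. -/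
theorem exists_multiplier_one {m : ℕ} {b : K} (hb : b ∈ C.R m) :
    ∃ c, c ≠ 0 ∧ c ∈ polySpace (k := k) C.η C.ζ ((C.d * (C.d * m) : ℕ) : ℤ) ∧
      ∀ j, c * D j b ∈ C.R ((C.d * (C.d * m) + C.d * m : ℕ) : ℤ) := by
  have := finiteDimensional C
  have := C.sep
  set F := ratField k C.η C.ζ
  set P := minpoly F b with hP
  have hbi : IsIntegral F b := IsIntegral.of_finite F b
  have hdeg := natDegree_minpoly_le C b
  set y := Polynomial.aeval b (Polynomial.derivative P) with hy
  have hyR : y ∈ C.R ((C.d * m : ℕ) : ℤ) := by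
    rw [hy, P.as_sum_range, map_sum, map_sum]
    refine sum_mem fun i _ => ?_
    rw [Polynomial.derivative_monomial, Polynomial.aeval_monomial]
    rcases i with _ | i
    · simp
    have h := Ring3.poly_mul_mem C.toRing3 (Ring3.minpoly_coeff_mem C.toRing3 hb (i + 1))
      (pow_mem C hb i)
    rcases lt_or_ge P.natDegree (i + 1) with hi | hi
    · simp [Polynomial.coeff_eq_zero_of_natDegree_lt hi]
    rw [map_mul, map_natCast, Nat.add_sub_cancel, mul_comm _ ((i + 1 : ℕ) : K), mul_assoc,
      ← nsmul_eq_mul]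
    refine nsmul_mem (mono C ?_ h) _
    rw [← Nat.cast_add, Int.ofNat_le, ← Nat.add_mul]
    exact Nat.mul_le_mul_right m (by rw [← hP] at hdeg ⊢; omega)
  have hy0 : y ≠ 0 :=
    (Algebra.IsSeparable.isSeparable F b).aeval_derivative_ne_zero (minpoly.aeval F b)
  obtain ⟨c, z, hc0, hc, hz, hcz⟩ := exists_norm C hyR hy0
  refine ⟨c, hc0, hc, fun j => ?_⟩
  set q := ∑ i ∈ Finset.range (P.natDegree + 1), D j ((P.coeff i : F) : K) * b ^ i with hq
  have hyq : y * D j b = -q := by
    have h0 : ∑ i ∈ Finset.range (P.natDegree + 1), ((P.coeff i : F) : K) * b ^ i = 0 := by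
      have h := minpoly.aeval F b
      rw [Polynomial.aeval_eq_sum_range, ← hP] at h
      simpa [IntermediateField.smul_def] using h
    have h1 := congrArg (D j) h0
    rw [map_sum, map_zero] at h1
    rw [eq_neg_iff_add_eq_zero, ← h1, hy, P.as_sum_range, map_sum, map_sum, Finset.sum_mul,
      ← P.as_sum_range, hq, ← Finset.sum_add_distrib]
    refine Finset.sum_congr rfl fun i _ => ?_
    rw [Polynomial.derivative_monomial, Polynomial.aeval_monomial, Derivation.leibniz,
      Derivation.leibniz_pow, map_mul, map_natCast]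
    simp only [smul_eq_mul, nsmul_eq_mul]
    rw [show algebraMap F K (P.coeff i) = ((P.coeff i : F) : K) from rfl]
    ring
  rw [hcz, mul_assoc, hyq, mul_neg]
  refine neg_mem ?_
  rw [Nat.cast_add]
  refine C.mul_mem _ _ _ hz _ (sum_mem fun i hi => ?_)
  have hi' := Finset.mem_range.1 hi
  have h := Ring3.poly_mul_mem C.toRing3 (polySpace_mono (sub_le_self _ zero_le_one)
    (deriv_polySpace hD j (Ring3.minpoly_coeff_mem C.toRing3 hb i))) (pow_mem C hb i)
  refine mono C ?_ h
  rw [← Nat.cast_add, Int.ofNat_le, ← Nat.add_mul]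
  exact Nat.mul_le_mul_right m (by rw [← hP] at hdeg ⊢; omega)

/-- The degree of the multiplier. -/
def multDeg (d g : ℕ) : ℕ := d * (d * (d * g)) + 4 * (d * (2 * g)) + d * g + g + 1

omit hD in
theorem exists_basis : ∃ b : Fin C.d → K, (∀ i, b i ∈ C.R C.g) ∧
    LinearIndependent (ratField k C.η C.ζ) b ∧
    Submodule.span (ratField k C.η C.ζ) (Set.range b) = ⊤ := by
  have := finiteDimensional C
  obtain ⟨s, hs, hspan, hli⟩ :=
    exists_linearIndependent (ratField k C.η C.ζ) (C.R C.g : Set K)
  rw [C.span_top] at hspan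
  let B := Module.Basis.mk hli (by rw [Subtype.range_coe, hspan])
  have hfin : Finite s := Module.Finite.finite_basis B
  have := Fintype.ofFinite s
  have hcard : Fintype.card s = C.d := by
    rw [← Module.finrank_eq_card_basis B, C.finrank_K]
  let e := (Fintype.equivFinOfCardEq hcard).symm
  refine ⟨fun i => (e i : K), fun i => hs (e i).2, hli.comp e e.injective, ?_⟩
  rw [show Set.range (fun i => ((e i : s) : K)) = s by
    ext x
    exact ⟨by rintro ⟨i, rfl⟩; exact (e i).2, fun hx => ⟨e.symm ⟨x, hx⟩, by simp⟩⟩]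
  exact hspan

/-- A non-zero multiplier of bounded degree for both derivations on the whole ring. -/
theorem exists_multiplier : ∃ c, c ≠ 0 ∧ c ∈ C.R (multDeg C.d C.g : ℤ) ∧
    ∀ j (n : ℤ), ∀ r ∈ C.R n, c * D j r ∈ C.R (n + multDeg C.d C.g) := by
  classical
  have := finiteDimensional C
  have := C.sep
  set F := ratField k C.η C.ζ
  obtain ⟨b, hb, hli, hspan⟩ := exists_basis C
  let B := Module.Basis.mk hli hspan.ge
  have hB : ⇑B = b := Module.Basis.coe_mk _ _
  choose c hc0 hc hcD using fun i => exists_multiplier_one C hD (hb i)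
  set e0 := C.d * (C.d * C.g)
  set M : Matrix (Fin C.d) (Fin C.d) F := Algebra.traceMatrix F b with hM
  set Mk : Matrix (Fin C.d) (Fin C.d) K := M.map (algebraMap F K) with hMk
  have hΔ0 : M.det ≠ 0 := by
    have := Algebra.discr_not_zero_of_basis F B
    rwa [hB, Algebra.discr_def] at this
  have hMmem : ∀ i l, Mk i l ∈ polySpace (k := k) C.η C.ζ ((2 * C.g : ℕ) : ℤ) := by
    intro i l
    rw [hMk, Matrix.map_apply, hM, Algebra.traceMatrix_apply, Algebra.traceForm_apply]
    refine trace_mem C ?_
    rw [two_mul, Nat.cast_add]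
    exact C.mul_mem _ _ _ (hb i) _ (hb l)
  set Δ : K := Mk.det with hΔ
  set δ := C.d * (2 * C.g) with hδ
  have hΔK : Δ = algebraMap F K M.det := by
    rw [hΔ, hMk, RingHom.map_det]
    rfl
  have hΔmem : Δ ∈ polySpace (k := k) C.η C.ζ (δ : ℤ) := by
    have h := det_mem_polySpace Mk hMmem
    rw [Fintype.card_fin] at h
    exact h
  set Pc := ∏ i, c i with hPc
  have hprod : ∀ s : Finset (Fin C.d), ∏ i ∈ s, c i ∈
      polySpace (k := k) C.η C.ζ ((s.card * e0 : ℕ) : ℤ) := by
    intro s
    induction s using Finset.induction with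
    | empty => simpa using one_mem_polySpace le_rfl
    | @insert a s ha ih =>
      rw [Finset.prod_insert ha, Finset.card_insert_of_notMem ha, Nat.add_mul, one_mul, add_comm,
        Nat.cast_add]
      exact mul_mem_polySpace (hc a) ih
  have hPcmem : Pc ∈ polySpace (k := k) C.η C.ζ ((C.d * e0 : ℕ) : ℤ) := by
    simpa using hprod Finset.univ
  have hPcD : ∀ i j, Pc * D j (b i) ∈ C.R ((C.d * e0 + C.d * C.g : ℕ) : ℤ) := by
    intro i j
    rw [hPc, ← Finset.mul_prod_erase _ _ (Finset.mem_univ i),
      show c i * (∏ l ∈ Finset.univ.erase i, c l) * D j (b i) =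
        (∏ l ∈ Finset.univ.erase i, c l) * (c i * D j (b i)) by ring]
    refine mono C ?_ (Ring3.poly_mul_mem C.toRing3 (hprod _) (hcD i j))
    rw [Finset.card_erase_of_mem (Finset.mem_univ i), Finset.card_univ, Fintype.card_fin,
      ← Nat.cast_add, Int.ofNat_le]
    have hdpos := C.d_pos
    obtain ⟨d', hd'⟩ : ∃ d', C.d = d' + 1 := ⟨C.d - 1, by omega⟩
    have hsplit : C.d * e0 = d' * e0 + e0 := by rw [hd', Nat.add_mul, one_mul]
    rw [hd', Nat.add_sub_cancel, ← hd']
    omega
  have hc_poly : Δ ^ 2 * Pc ∈ polySpace (k := k) C.η C.ζ ((2 * δ + C.d * e0 : ℕ) : ℤ) := by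
    rw [pow_two, two_mul, Nat.cast_add, Nat.cast_add]
    exact mul_mem_polySpace (mul_mem_polySpace hΔmem hΔmem) hPcmem
  have h1R : (1 : K) ∈ C.R 0 := by simp [C.R_zero]
  refine ⟨Δ ^ 2 * Pc, mul_ne_zero (pow_ne_zero _ ?_) (Finset.prod_ne_zero_iff.2 fun i _ => hc0 i),
    ?_, ?_⟩
  · rw [hΔK]
    exact (map_ne_zero _).2 hΔ0
  · have h := Ring3.poly_mul_mem C.toRing3 hc_poly h1R
    rw [mul_one, zero_add] at h
    refine mono C ?_ h
    simp only [multDeg, hδ, e0]
    push_cast
    nlinarith
  have hg : ∀ j, ∀ r ∈ C.R C.g, Δ ^ 2 * Pc * D j r ∈ C.R (multDeg C.d C.g : ℤ) := by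
    intro j r hr
    set v : Fin C.d → F := fun i => Algebra.traceForm F K r (b i) with hv
    have hf : Δ * r = ∑ i, ((Matrix.cramer M v i : F) : K) * b i := by
      have h1 : ∀ l, Algebra.traceForm F K (∑ i, Matrix.cramer M v i • b i - M.det • r) (b l)
          = 0 := by
        intro l
        rw [map_sub, LinearMap.sub_apply, map_sum, LinearMap.sum_apply]
        have h2 := congrFun (Matrix.mulVec_cramer M v) l
        simp only [Matrix.mulVec, dotProduct, Pi.smul_apply, smul_eq_mul] at h2
        simp only [map_smul, LinearMap.smul_apply, smul_eq_mul]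
        rw [show Algebra.traceForm F K r (b l) = v l from rfl, ← h2, sub_eq_zero]
        refine Finset.sum_congr rfl fun i _ => ?_
        rw [hM, Algebra.traceMatrix_apply, Algebra.traceForm_apply, Algebra.traceForm_apply,
          mul_comm (b i), mul_comm]
      have h3 : ∑ i, Matrix.cramer M v i • b i - M.det • r = 0 := by
        refine (traceForm_nondegenerate F K).1 _ fun y => ?_
        have h4 : Algebra.traceForm F K (∑ i, Matrix.cramer M v i • b i - M.det • r) = 0 :=
          B.ext fun l => by rw [hB]; simpa using h1 l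
        rw [h4]
        rfl
      rw [sub_eq_zero] at h3
      simp only [IntermediateField.smul_def, smul_eq_mul] at h3
      rw [hΔK, h3]
      rfl
    have hfmem : ∀ i, ((Matrix.cramer M v i : F) : K) ∈ polySpace (k := k) C.η C.ζ (δ : ℤ) := by
      intro i
      rw [Matrix.cramer_apply]
      show algebraMap F K (M.updateCol i v).det ∈ _
      rw [RingHom.map_det]
      have h := det_mem_polySpace (k := k) (η := C.η) (ζ := C.ζ) (m := 2 * C.g)
        ((algebraMap F K).mapMatrix (M.updateCol i v)) fun a l => by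
          rw [RingHom.mapMatrix_apply, Matrix.map_apply, Matrix.updateCol_apply]
          split_ifs
          · simp only [hv]
            rw [Algebra.traceForm_apply]
            refine trace_mem C ?_
            rw [two_mul, Nat.cast_add]
            exact C.mul_mem _ _ _ hr _ (hb a)
          · exact hMmem a l
      rw [Fintype.card_fin] at h
      exact h
    have key : Δ ^ 2 * Pc * D j r =
        ∑ i, (Δ * D j ((Matrix.cramer M v i : F) : K) * Pc * b i +
          Δ * ((Matrix.cramer M v i : F) : K) * (Pc * D j (b i))) -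
        Δ * D j Δ * Pc * r := by
      have h1 := congrArg (D j) hf
      rw [Derivation.leibniz, map_sum] at h1
      simp only [Derivation.leibniz, smul_eq_mul] at h1
      calc Δ ^ 2 * Pc * D j r = Δ * Pc * (Δ * D j r + r * D j Δ) - Δ * D j Δ * Pc * r := by ring
        _ = _ := by
          rw [h1, Finset.mul_sum]
          congr 1
          exact Finset.sum_congr rfl fun i _ => by ring
    rw [key]
    have hdmem : ∀ {x : K}, x ∈ polySpace (k := k) C.η C.ζ (δ : ℤ) →
        D j x ∈ polySpace (k := k) C.η C.ζ (δ : ℤ) := fun hx =>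
      polySpace_mono (sub_le_self _ zero_le_one) (deriv_polySpace hD j hx)
    refine sub_mem (sum_mem fun i _ => add_mem ?_ ?_) ?_
    · refine mono C ?_ (Ring3.poly_mul_mem C.toRing3
        (e := δ + δ + C.d * e0) ?_ (hb i))
      · simp only [multDeg, hδ, e0]; push_cast; nlinarith
      · push_cast
        exact mul_mem_polySpace (mul_mem_polySpace hΔmem (hdmem (hfmem i))) hPcmem
    · refine mono C ?_ (Ring3.poly_mul_mem C.toRing3 (e := δ + δ) ?_ (hPcD i j))
      · simp only [multDeg, hδ, e0]; push_cast; nlinarith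
      · push_cast
        exact mul_mem_polySpace hΔmem (hfmem i)
    · refine mono C ?_ (Ring3.poly_mul_mem C.toRing3
        (e := δ + δ + C.d * e0) ?_ hr)
      · simp only [multDeg, hδ, e0]; push_cast; nlinarith
      · push_cast
        exact mul_mem_polySpace (mul_mem_polySpace hΔmem (hdmem hΔmem)) hPcmem
  intro j n
  have low : ∀ n : ℤ, n ≤ C.g → ∀ r ∈ C.R n, Δ ^ 2 * Pc * D j r ∈ C.R (n + multDeg C.d C.g) := by
    intro n hn r hr
    rcases lt_or_ge n 0 with h | h
    · rw [C.R_neg n h, Submodule.mem_bot] at hr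
      simp [hr]
    · refine mono C ?_ (hg j r (mono C hn hr))
      simp only [multDeg]
      push_cast
      omega
  rcases le_total n C.g with hn | hn
  · exact low n hn
  induction n, hn using Int.leInduction with
  | base => exact low _ le_rfl
  | succ n hn ih =>
    intro r hr
    rw [C.gen n hn] at hr
    obtain ⟨_, h12, _, ⟨z, hz, rfl⟩, rfl⟩ := Submodule.mem_sup.1 hr
    obtain ⟨a, ha, _, ⟨y, hy, rfl⟩, rfl⟩ := Submodule.mem_sup.1 h12
    have hstep : ∀ (ξ : K), ξ ∈ C.R 1 → (D j ξ = 0 ∨ D j ξ = 1) → ∀ w ∈ C.R n,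
        Δ ^ 2 * Pc * D j (ξ * w) ∈ C.R (n + 1 + multDeg C.d C.g) := by
      intro ξ hξ hdξ w hw
      rw [Derivation.leibniz, smul_eq_mul, smul_eq_mul, mul_add]
      refine add_mem ?_ ?_
      · rw [show Δ ^ 2 * Pc * (ξ * D j w) = Δ ^ 2 * Pc * D j w * ξ by ring]
        exact mono C (by omega) (C.mul_mem _ _ _ (ih w hw) _ hξ)
      · rcases hdξ with h | h
        · simp [h]
        · rw [h, mul_one]
          refine mono C ?_ (Ring3.poly_mul_mem C.toRing3 hc_poly hw)
          simp only [multDeg, hδ, e0]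
          push_cast
          nlinarith
    simp only [LinearMap.mulLeft_apply, map_add, mul_add]
    have h0 := hD j 0
    have h1 := hD j 1
    simp only [Matrix.cons_val_zero, Matrix.cons_val_one, Matrix.cons_val_fin_one] at h0 h1
    refine add_mem (add_mem (mono C (by omega) (ih a ha)) (hstep _ C.η_mem ?_ y hy))
      (hstep _ C.ζ_mem ?_ z hz)
    · rw [h0]; split_ifs <;> simp
    · rw [h1]; split_ifs <;> simp

end Cone

end Vale.Agent.P190.Bound
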