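import Mathlib

/-!
P190: a subspace stable under coordinatewise derivations is spanned by its vectors with
`p`-th-power coordinates, when the common kernel of the derivations consists of `p`-th powers.
-/

namespace Vale.Agent.P190.Bound

variable {k K : Type} [Field k] [Field K] [Algebra k K] {r : ℕ}

/-- Descent along derivations. -/
theorem span_pow_of_stable {ι : Type} (D : ι → Derivation k K K) (p : ℕ)
    (hker : ∀ x : K, (∀ j, D j x = 0) → ∃ y, y ^ p = x) (W : Submodule K (Fin r → K))
    (hW : ∀ j, ∀ w ∈ W, (fun i => D j (w i)) ∈ W) :
    W = Submodule.span K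
      {w | w ∈ W ∧ ∃ v : Fin r → K, w = fun i => v i ^ p} := by
  classical
  refine le_antisymm ?_ (Submodule.span_le.2 fun w hw => hw.1)
  set P : Set (Fin r → K) := {w | w ∈ W ∧ ∃ v : Fin r → K, w = fun i => v i ^ p}
  let supp : (Fin r → K) → Finset (Fin r) := fun w => Finset.univ.filter fun i => w i ≠ 0
  suffices h : ∀ (n : ℕ) (w : Fin r → K), (supp w).card ≤ n → w ∈ W → w ∈ Submodule.span K P from
    fun w hw => h _ w le_rfl hw
  intro n
  induction n with
  | zero =>
    intro w hw _
    have : w = 0 := funext fun i => by
      by_contra hi
      have := Finset.card_eq_zero.1 (Nat.le_zero.1 hw)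
      exact Finset.notMem_empty i (this ▸ Finset.mem_filter.2 ⟨Finset.mem_univ i, hi⟩)
    rw [this]
    exact zero_mem _
  | succ n ih =>
    intro w hcard hw
    by_cases hmin : ∃ u ∈ W, u ≠ 0 ∧ supp u ⊂ supp w
    · obtain ⟨u, huW, hu0, hsub⟩ := hmin
      obtain ⟨i, hi⟩ : ∃ i, u i ≠ 0 := by
        by_contra hcon
        push Not at hcon
        exact hu0 (funext hcon)
      have huP := ih u (by have := Finset.card_lt_card hsub; omega) huW
      have hw' : w - (w i / u i) • u ∈ Submodule.span K P := by
        refine ih _ ?_ (W.sub_mem hw (W.smul_mem _ huW))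
        have hlt : supp (w - (w i / u i) • u) ⊂ supp w := by
          refine Finset.ssubset_iff_of_subset ?_ |>.2 ⟨i, hsub.subset ?_, ?_⟩
          · intro l hl
            simp only [supp, Finset.mem_filter, Finset.mem_univ, true_and] at hl ⊢
            intro hwl
            by_cases hul : u l = 0
            · exact hl (by simp [hwl, hul])
            · have : l ∈ supp w := hsub.subset (by simp [supp, hul])
              simp [supp, hwl] at this
          · simp [supp, hi]
          · simp [supp, hi]
        have := Finset.card_lt_card hlt
        omega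
      have := Submodule.add_mem _ hw' (Submodule.smul_mem _ (w i / u i) huP)
      rwa [sub_add_cancel] at this
    · by_cases hw0 : w = 0
      · rw [hw0]; exact zero_mem _
      obtain ⟨i, hi⟩ : ∃ i, w i ≠ 0 := by
        by_contra hcon
        push Not at hcon
        exact hw0 (funext hcon)
      set v := (w i)⁻¹ • w with hv
      have hvW : v ∈ W := W.smul_mem _ hw
      have hD : ∀ j l, D j (v l) = 0 := by
        intro j
        by_contra hcon
        push Not at hcon
        refine hmin ⟨fun l => D j (v l), hW j v hvW, fun h => ?_, ?_⟩
        · obtain ⟨l, hl⟩ := hcon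
          exact hl (congrFun h l)
        · refine Finset.ssubset_iff_of_subset ?_ |>.2 ⟨i, by simp [supp, hi], ?_⟩
          · intro l hl
            simp only [supp, Finset.mem_filter, Finset.mem_univ, true_and] at hl ⊢
            intro hwl
            exact hl (by simp [hv, hwl])
          · have h1 : v i = 1 := by rw [hv, Pi.smul_apply, smul_eq_mul, inv_mul_cancel₀ hi]
            simp [supp, h1]
      choose y hy using fun l => hker (v l) fun j => hD j l
      have hvP : v ∈ Submodule.span K P :=
        Submodule.subset_span ⟨hvW, y, funext fun l => (hy l).symm⟩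
      have := Submodule.smul_mem (Submodule.span K P) (w i) hvP
      rwa [hv, smul_smul, mul_inv_cancel₀ hi, one_smul] at this

end Vale.Agent.P190.Bound
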