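import Vale.Agent.P190.Bound.Colon

/-!
Finitely generated saturated families from embeddings into free families: colon families and
coordinate restrictions.
-/

open Filter Module Submodule

namespace Vale.Agent.P190.Bound

open Vale.Agent.P190 Hilb

variable {k K : Type} [Field k] [Field K] [Algebra k K] {C : Cone k K} {r : ℕ}
  {N M X : ℤ → Submodule k (Fin r → K)} {a : ℤ} {w : K}

/-- An equivariant embedding into a free family. -/
def Emb (C : Cone k K) {r : ℕ} (M : ℤ → Submodule k (Fin r → K)) : Prop :=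
  ∃ (ι : Type) (_ : Fintype ι) (deg : ι → ℤ) (Φ : (Fin r → K) →ₗ[k] (ι → K)),
    Function.Injective Φ ∧ (∀ e ∈ ({C.η, C.ζ} : Set K), ∀ v, Φ (e • v) = e • Φ v) ∧
    ∀ n, ∀ v ∈ M n, Φ v ∈ freeFam (k := k) C.η C.ζ deg n

theorem emb_of_fam (hN : Fam C.η C.ζ N) : Emb C N := by
  have := finiteDimensional_ratField C
  have := C.sep
  obtain ⟨P⟩ := (Hilb.Fam.dual C.indep hN).exists_pres
  refine ⟨P.ι, inferInstance, fun i => 3 - P.a i, P.values,
    P.values_injective (Hilb.Fam.dual C.indep hN), fun e he v => ?_, fun n v hv => P.values_mem ?_⟩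
  · funext i
    exact pair_smul_left (IntermediateField.subset_adjoin k _ he) v (P.g i)
  · intro j u hu
    have := hu n v hv
    rw [show j + n - 3 = n + j - 3 by ring] at this
    simpa [mul_comm] using this

theorem fam_of_emb (hc : Closed C.η C.ζ M) (he : Emb C M)
    (hsat : ∀ n, ∀ v ∈ M (n + 1), C.η • v ∈ M (n + 1) → v ∈ M n)
    (hspan : span (ratField k C.η C.ζ) (⋃ n, (M n : Set (Fin r → K))) = ⊤) : Fam C.η C.ζ M := by
  classical
  obtain ⟨ι, _, deg, Φ, hinj, hcomm, hmem⟩ := he
  have hle : ∀ n, (M n).map Φ ≤ freeFam (k := k) C.η C.ζ deg n := fun n =>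
    Submodule.map_le_iff_le_comap.2 fun v hv => hmem n v hv
  have hW : Closed C.η C.ζ fun n => (M n).map Φ :=
    { mono := fun n => Submodule.map_mono (hc.mono n)
      eta := fun n _ ⟨v, hv, e⟩ => ⟨C.η • v, hc.eta n v hv, by rw [hcomm C.η (by simp), e]⟩
      zeta := fun n _ ⟨v, hv, e⟩ => ⟨C.ζ • v, hc.zeta n v hv, by rw [hcomm C.ζ (by simp), e]⟩ }
  refine ⟨hc, fun n => ?_, ?_, hsat, ?_, hspan⟩
  · have := fd_freeFam (k := k) (η := C.η) (ζ := C.ζ) deg n
    have := Submodule.finiteDimensional_of_le (hle n)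
    exact Module.Finite.equiv (Submodule.equivMapOfInjective Φ hinj _).symm
  · obtain ⟨b, hb⟩ := Finite.exists_le fun i => -deg i
    refine ⟨-b, fun n hn => ?_⟩
    rw [eq_bot_iff]
    intro v hv
    rw [Submodule.mem_bot]
    refine hinj ?_
    rw [map_zero]
    funext i
    have h := mem_freeFam.1 (hmem n v hv) i
    rw [polySpace_neg (by have := hb i; omega), Submodule.mem_bot] at h
    exact h
  · obtain ⟨b, hb⟩ := exists_gen_of_le_free hW hle
    refine ⟨b, fun n hn => ?_⟩
    refine Submodule.map_injective_of_injective hinj ?_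
    rw [hb n hn, Submodule.map_sup, Submodule.map_sup, ← Submodule.map_comp, ← Submodule.map_comp,
      ← Submodule.map_comp, ← Submodule.map_comp,
      show Φ.comp (smulE k C.η) = (smulE k C.η).comp Φ from LinearMap.ext (hcomm C.η (by simp)),
      show Φ.comp (smulE k C.ζ) = (smulE k C.ζ).comp Φ from LinearMap.ext (hcomm C.ζ (by simp))]

/-- A stable family spanning over `K` spans over `k(η, ζ)`. -/
theorem spanE_of_stable (hs : Stable C M) (h : span K (⋃ n, (M n : Set (Fin r → K))) = ⊤) :
    span (ratField k C.η C.ζ) (⋃ n, (M n : Set (Fin r → K))) = ⊤ := by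
  rw [eq_top_iff]
  rintro v -
  have hv : v ∈ span K (⋃ n, (M n : Set (Fin r → K))) := by rw [h]; exact mem_top
  induction hv using Submodule.span_induction with
  | mem x hx => exact subset_span hx
  | zero => exact zero_mem _
  | add x y _ _ hx hy => exact add_mem hx hy
  | smul c x hxK hx =>
    clear hxK
    have hc : c ∈ span (ratField k C.η C.ζ) (C.R C.g : Set K) := by rw [C.span_top]; exact mem_top
    induction hx using Submodule.span_induction with
    | mem y hy =>
      obtain ⟨n, hn⟩ := Set.mem_iUnion.1 hy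
      induction hc using Submodule.span_induction with
      | mem b hb => exact subset_span (Set.mem_iUnion.2 ⟨_, hs _ _ b hb y hn⟩)
      | zero => simp
      | add b b' _ _ hb hb' => rw [add_smul]; exact add_mem hb hb'
      | smul t b _ hb => rw [smul_assoc]; exact Submodule.smul_mem _ t hb
    | zero => simp
    | add y z _ _ hy hz => rw [smul_add]; exact add_mem hy hz
    | smul t y _ hy => rw [smul_comm]; exact Submodule.smul_mem _ t hy

theorem stable_one1 : Stable C (one1 C.R) := fun m n c hc v hv => C.mul_mem m n c hc (v 0) hv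

theorem isMod_one1 (hR : ∀ n, dualFam C.η C.ζ (dualFam C.η C.ζ (one1 C.R)) n = one1 C.R n) :
    C.IsMod (one1 C.R) := by
  have hfd : ∀ n, FiniteDimensional k (one1 C.R n) := fun n => by
    have := C.fd n
    refine Module.Finite.equiv (M := C.R n)
      { toFun := fun c => ⟨fun _ => c.1, c.2⟩
        invFun := fun v => ⟨v.1 0, v.2⟩
        map_add' := fun _ _ => rfl
        map_smul' := fun _ _ => rfl
        left_inv := fun _ => rfl
        right_inv := fun v => Subtype.ext (funext fun i => by fin_cases i; rfl) }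
  refine ⟨stable_one1, hfd, ⟨0, fun n hn => ?_⟩, ⟨C.g, fun n hn => le_antisymm ?_
    ((Stable.closed stable_one1).adjoin_le_self n)⟩, ?_, hR⟩
  · rw [eq_bot_iff]
    intro v hv
    have h : v 0 ∈ C.R n := hv
    rw [C.R_neg n hn, Submodule.mem_bot] at h
    exact (Submodule.mem_bot k).2 (funext fun i => by fin_cases i; exact h)
  · intro v hv
    have h : v 0 ∈ C.R (n + 1) := hv
    rw [C.gen n hn] at h
    obtain ⟨y, hy, _, ⟨z, hz, rfl⟩, hyz⟩ := Submodule.mem_sup.1 h
    obtain ⟨x, hx, _, ⟨t, ht, rfl⟩, hxt⟩ := Submodule.mem_sup.1 hy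
    refine Submodule.mem_sup.2 ⟨(fun _ => x) + C.η • (fun _ => t),
      Submodule.mem_sup.2 ⟨_, hx, _, ⟨fun _ => t, ht, rfl⟩, rfl⟩,
      C.ζ • (fun _ => z), ⟨fun _ => z, hz, rfl⟩, funext fun i => ?_⟩
    fin_cases i
    simpa [← hxt] using hyz
  · rw [eq_top_iff]
    rintro v -
    rw [show v = v 0 • (fun _ => (1 : K)) from funext fun i => by fin_cases i; simp]
    exact Submodule.smul_mem _ _ (subset_span (Set.mem_iUnion.2 ⟨1, C.one_mem⟩))

theorem R_sat (hR : ∀ n, dualFam C.η C.ζ (dualFam C.η C.ζ (one1 C.R)) n = one1 C.R n) {n : ℤ}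
    {c : K} (h : c ∈ C.R (n + 1)) (h' : C.η * c ∈ C.R (n + 1)) : c ∈ C.R n :=
  (fam_of_isMod (isMod_one1 hR)).sat n (fun _ => c) h h'

theorem colon_sat (hR : ∀ n, dualFam C.η C.ζ (dualFam C.η C.ζ (one1 C.R)) n = one1 C.R n)
    (n : ℤ) : ∀ v ∈ colon C X (n + 1), C.η • v ∈ colon C X (n + 1) → v ∈ colon C X n := by
  intro v hv hv' j u hu
  have h1 := hv j u hu
  have h2 := hv' j u hu
  rw [show n + 1 + j = n + j + 1 by ring] at h1 h2
  simp only [Pi.smul_apply, smul_eq_mul, mul_assoc, ← Finset.mul_sum] at h2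
  exact R_sat hR h1 h2

/-- A colon family of a spanning family with spanning colon is finitely generated and saturated. -/
theorem fam_colon_span (hR : ∀ n, dualFam C.η C.ζ (dualFam C.η C.ζ (one1 C.R)) n = one1 C.R n)
    (hX : span K (⋃ n, (X n : Set (Fin r → K))) = ⊤)
    (hc : span K (⋃ n, (colon C X n : Set (Fin r → K))) = ⊤) : Fam C.η C.ζ (colon C X) := by
  classical
  obtain ⟨b, hb, hbspan, hli⟩ := exists_linearIndependent K (⋃ n, (X n : Set (Fin r → K)))
  have := (hli.setFinite).fintype
  choose deg hdeg using fun i : b => Set.mem_iUnion.1 (hb i.2)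
  obtain ⟨ι, _, dR, ΦR, hinjR, hcR, hmR⟩ := emb_of_fam (fam_of_isMod (isMod_one1 hR))
  let pr : b → (Fin r → K) →ₗ[k] (Fin 1 → K) := fun i =>
    { toFun := fun v _ => ∑ l, v l * (i : Fin r → K) l
      map_add' := fun v v' => by funext l; simp [add_mul, Finset.sum_add_distrib]
      map_smul' := fun c v => by funext l; simp [Finset.smul_sum] }
  let Φ : (Fin r → K) →ₗ[k] (b × ι → K) :=
    { toFun := fun v q => ΦR (pr q.1 v) q.2
      map_add' := fun v v' => by funext q; simp
      map_smul' := fun c v => by funext q; simp }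
  refine fam_of_emb (Stable.closed stable_colon) ⟨b × ι, inferInstance,
    fun q => dR q.2 - deg q.1, Φ, ?_, fun e he v => ?_, fun n v hv => ?_⟩ (colon_sat hR)
    (spanE_of_stable stable_colon hc)
  · rw [injective_iff_map_eq_zero]
    intro v hv
    have h : ∀ i : b, ∑ l, v l * (i : Fin r → K) l = 0 := fun i => by
      have h1 : ΦR (pr i v) = 0 := funext fun q => congrFun hv (i, q)
      exact congrFun (hinjR (h1.trans (map_zero ΦR).symm)) 0
    have hall : ∀ u : Fin r → K, ∑ l, v l * u l = 0 := fun u => by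
      have hu : u ∈ span K b := by rw [hbspan, hX]; exact mem_top
      induction hu using Submodule.span_induction with
      | mem x hx => exact h ⟨x, hx⟩
      | zero => simp
      | add x y _ _ hx hy => simp [mul_add, Finset.sum_add_distrib, hx, hy]
      | smul c x _ hx =>
        simp only [Pi.smul_apply, smul_eq_mul, mul_left_comm _ c, ← Finset.mul_sum, hx, mul_zero]
    funext l
    simpa [Pi.single_apply] using hall (Pi.single l 1)
  · funext q
    have h1 : pr q.1 (e • v) = e • pr q.1 v := by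
      funext l; simp [pr, Finset.mul_sum, mul_assoc]
    show ΦR (pr q.1 (e • v)) q.2 = e * ΦR (pr q.1 v) q.2
    rw [h1, hcR e he]
    rfl
  · refine mem_freeFam.2 fun q => ?_
    have h := mem_freeFam.1 (hmR (n + deg q.1) (pr q.1 v) (hv _ _ (hdeg q.1))) q.2
    rw [show n + deg q.1 - dR q.2 = n - (dR q.2 - deg q.1) by ring] at h
    exact h

theorem exists_denom_vec (hN : Fam C.η C.ζ N) (v : Fin r → K) :
    ∃ (q : K) (n : ℤ), q ≠ 0 ∧ q • v ∈ N n := by
  classical
  have hv : v ∈ span (ratField k C.η C.ζ) (⋃ n, (N n : Set (Fin r → K))) := by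
    rw [hN.spanE]; exact mem_top
  suffices H : ∃ (q : K) (e : ℕ) (n : ℤ), q ≠ 0 ∧ q ∈ polySpace (k := k) C.η C.ζ e ∧ q • v ∈ N n by
    obtain ⟨q, e, n, hq, -, hqv⟩ := H
    exact ⟨q, n, hq, hqv⟩
  induction hv using Submodule.span_induction with
  | mem x hx =>
    obtain ⟨n, hn⟩ := Set.mem_iUnion.1 hx
    exact ⟨1, 0, n, one_ne_zero, one_mem_poly (by simp), by simpa using hn⟩
  | zero => exact ⟨1, 0, 0, one_ne_zero, one_mem_poly (by simp), by simp⟩
  | add x y _ _ hx hy =>
    obtain ⟨q, e, n, hq, hqp, hqx⟩ := hx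
    obtain ⟨q', e', n', hq', hqp', hqy⟩ := hy
    refine ⟨q * q', e + e', max (n + e') (n' + e), mul_ne_zero hq hq',
      by simpa using mul_mem_polySpace hqp hqp', ?_⟩
    rw [smul_add]
    refine add_mem (hN.toClosed.mono_le (le_max_left _ _) ?_)
      (hN.toClosed.mono_le (le_max_right _ _) ?_)
    · rw [mul_comm, mul_smul]
      exact hN.toClosed.poly_smul hqp' hqx
    · rw [mul_smul]
      exact hN.toClosed.poly_smul hqp hqy
  | smul t x _ hx =>
    obtain ⟨q, e, n, hq, hqp, hqx⟩ := hx
    obtain ⟨e', t', ht', ht0, htv⟩ := exists_denom (η := C.η) (ζ := C.ζ) (k := k) t.2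
    refine ⟨t' * q, e' + e, n + e', mul_ne_zero ht0 hq,
      by simpa using mul_mem_polySpace ht' hqp, ?_⟩
    rw [show (t' * q) • t • x = (t' * (t : K)) • q • x by
      rw [show t • x = (t : K) • x from rfl, smul_smul, smul_smul]; ring_nf]
    exact hN.toClosed.poly_smul htv hqx

/-- Extension by zero along an injection of coordinates. -/
noncomputable def extMap (k : Type) {K : Type} [Field k] [Field K] [Algebra k K] {m r : ℕ}
    (e : Fin m → Fin r) : (Fin m → K) →ₗ[k] (Fin r → K) where
  toFun u := ∑ i, Pi.single (e i) (u i)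
  map_add' u u' := by simp [Pi.single_add, Finset.sum_add_distrib]
  map_smul' c u := by simp [Pi.single_smul, Finset.smul_sum]

theorem extMap_apply {m : ℕ} {e : Fin m → Fin r} (he : Function.Injective e) (u : Fin m → K)
    (i : Fin m) : extMap k e u (e i) = u i := by
  classical
  simp [extMap, Pi.single_apply, he.eq_iff]

theorem extMap_apply_notMem {m : ℕ} {e : Fin m → Fin r} (u : Fin m → K) {l : Fin r}
    (hl : ∀ i, e i ≠ l) : extMap k e u l = 0 := by
  simp [extMap, fun i => (hl i).symm]

theorem extMap_smul {m : ℕ} (e : Fin m → Fin r) (c : K) (u : Fin m → K) :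
    extMap k e (c • u) = c • extMap k e u := by
  simp [extMap, Finset.smul_sum, ← Pi.single_smul]

theorem extMap_injective {m : ℕ} {e : Fin m → Fin r} (he : Function.Injective e) :
    Function.Injective (extMap (K := K) k e) := fun u u' h => funext fun i => by
  have := congrFun h (e i)
  rwa [extMap_apply he, extMap_apply he] at this

/-- The restriction of a family to a set of coordinates. -/
noncomputable def restr {m : ℕ} (N : ℤ → Submodule k (Fin r → K)) (e : Fin m → Fin r) (n : ℤ) :
    Submodule k (Fin m → K) :=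
  (N n).comap (extMap k e)

theorem fam_restr (hN : Fam C.η C.ζ N) (hs : Stable C N) {m : ℕ} {e : Fin m → Fin r}
    (he : Function.Injective e) : Fam C.η C.ζ (restr N e) := by
  classical
  have hst : Stable C (restr N e) := fun i n c hc u hu => by
    show extMap k e (c • u) ∈ N (i + n)
    rw [extMap_smul]
    exact hs i n c hc _ hu
  obtain ⟨ι, _, deg, Φ, hinj, hcomm, hmem⟩ := emb_of_fam hN
  refine fam_of_emb (Stable.closed hst) ⟨ι, inferInstance, deg, Φ.comp (extMap k e),
    hinj.comp (extMap_injective he), fun c hc u => ?_, fun n u hu => hmem n _ hu⟩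
    (fun n u hu hu' => ?_) (spanE_of_stable hst ?_)
  · show Φ (extMap k e (c • u)) = c • Φ (extMap k e u)
    rw [extMap_smul, hcomm c hc]
  · refine hN.sat n _ hu ?_
    rw [← extMap_smul]
    exact hu'
  · rw [eq_top_iff]
    rintro u -
    obtain ⟨q, n, hq, hqu⟩ := exists_denom_vec hN (extMap k e u)
    have hmem' : q • u ∈ restr N e n := by
      show extMap k e (q • u) ∈ N n
      rw [extMap_smul]; exact hqu
    rw [show u = q⁻¹ • q • u by rw [smul_smul, inv_mul_cancel₀ hq, one_smul]]
    exact Submodule.smul_mem _ _ (subset_span (Set.mem_iUnion.2 ⟨n, hmem'⟩))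

end Vale.Agent.P190.Bound
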