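import Vale.Agent.P190.Hilb.Bound0
import Vale.Agent.P190.Hilb.Omega
import Vale.Agent.P190.Bound.Colon

/-! The bound on a Hilbert function from centred slope bounds. -/

namespace Vale.Agent.P190.Bound

open Vale.Agent.P190 Hilb Module Submodule

variable {k K : Type} [Field k] [Field K] [Algebra k K] [Infinite k] (C : Cone k K) {r : ℕ}

/-- If all parts of a module have centred slope at most `T` then its Hilbert function is bounded
by `rank · (x + T + g + 1/2)² / 2` with `x = n - a / 2`. -/
theorem h0_glue {X : ℤ → Submodule k (Fin r → K)} (hX : C.IsMod X) {a : ℤ} {T : ℚ}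
    (hT : ∀ V : Submodule K (Fin r → K), V ≠ ⊥ → ∀ β γ : ℚ,
      Quad a (Cone.part X V) (((C.d * finrank K V : ℕ) : ℚ) / 2) β γ →
      β ≤ ((C.d * finrank K V : ℕ) : ℚ) * T) (n : ℤ) :
    (finrank k (X n) : ℚ) ≤
      ((C.d * r : ℕ) : ℚ) * posSq (((n : ℚ) - (a : ℚ) / 2) + T + C.g + 1 / 2) := by
  have h := h0_bound C hX (s := T - (a : ℚ) / 2 - 3 / 2) (fun V hV eV cV hP => by
    have := hT V hV _ _ (quad_of_hasPoly (a := a) hP)
    linarith [this]) n
  convert h using 3
  ring

omit [Infinite k] in
/-- The shift of the canonical family is bounded by the generation degree. -/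
theorem omegaData_shift_le {a : ℤ} {w : K} (hω : OmegaData C a w) : a + 3 ≤ C.g :=
  omega_shift_le C hω.1 hω.2

end Vale.Agent.P190.Bound
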