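import Vale.Agent.P190.Bound.Chart

/-!
P190: two rank-one families that are each other's colon in the ring have sections `σ, τ` of one degree
without a common divisor.
-/

namespace Vale.Agent.P190.Bound.Pair

open Chart

variable {k K : Type} [Field k] [Field K] [Algebra k K] {C : Cone k K}

theorem colon_std {J J' : ℤ → Submodule k K}
    (hJ : ∀ n c, c ∈ J n ↔ ∀ m, ∀ c' ∈ J' m, c * c' ∈ C.R (n + m))
    {s : K} (hs : IsStd C s) {n : ℤ} {c : K} (hc : c ∈ J n) : c * s ∈ J (n + 1) := by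
  rw [hJ] at hc ⊢
  intro m c' hc'
  rw [mul_right_comm, show n + 1 + m = n + m + 1 by ring]
  exact mul_std_mem hs (hc m c' hc')

theorem colon_pow {J J' : ℤ → Submodule k K}
    (hJ : ∀ n c, c ∈ J n ↔ ∀ m, ∀ c' ∈ J' m, c * c' ∈ C.R (n + m))
    {s : K} (hs : IsStd C s) {n : ℤ} {c : K} (hc : c ∈ J n) {m : ℤ} (hm : n ≤ m) :
    c * s ^ (m - n) ∈ J m := by
  induction m, hm using Int.leInduction with
  | base => simpa using hc
  | succ m _ ih =>
    rw [show m + 1 - n = m - n + 1 by ring, zpow_add_one₀ hs.ne_zero, ← mul_assoc]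
    exact colon_std hJ hs ih

/-- Induction along the generation of a family in low degrees. -/
theorem gen_le {X : ℤ → Submodule k K} {b₀ b : ℤ} (hbelow : ∀ n < b₀, X n = ⊥)
    (hgen : ∀ n ≥ b, X (n + 1) = X n ⊔ (X n).map (LinearMap.mulLeft k C.η)
      ⊔ (X n).map (LinearMap.mulLeft k C.ζ))
    (Y : ℤ → Submodule k K) (hlow : ∀ n, b₀ ≤ n → n ≤ b → X n ≤ Y n)
    (hstep : ∀ s, IsStd C s → ∀ n, ∀ v ∈ Y n, v * s ∈ Y (n + 1)) (n : ℤ) : X n ≤ Y n := by
  have h0 : ∀ n ≤ b, X n ≤ Y n := fun n hn => by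
    rcases lt_or_ge n b₀ with h | h
    · rw [hbelow n h]; exact bot_le
    · exact hlow n h hn
  rcases le_or_gt n b with h | h
  · exact h0 n h
  · induction n, h.le using Int.leInduction with
    | base => exact h0 b le_rfl
    | succ m hm ih =>
      have hX : X m ≤ Y m := by
        rcases eq_or_lt_of_le hm with h' | h'
        · exact h' ▸ h0 b le_rfl
        · exact ih h'
      rw [hgen m hm]
      refine sup_le (sup_le (fun v hv => ?_) ?_) ?_
      · simpa using hstep 1 (by simp [IsStd]) m v (hX hv)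
      · rintro _ ⟨v, hv, rfl⟩
        rw [LinearMap.mulLeft_apply, mul_comm]
        exact hstep C.η (by simp [IsStd]) m v (hX hv)
      · rintro _ ⟨v, hv, rfl⟩
        rw [LinearMap.mulLeft_apply, mul_comm]
        exact hstep C.ζ (by simp [IsStd]) m v (hX hv)

/-- A proper quotient `y / x` of the chart cannot map all products into the chart, so the annihilator
of `y` modulo `x` misses one of them. -/
theorem exists_notMem [IsAlgClosed k] (hC : C.Smooth) {s : K} (hs : IsStd C s)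
    {J J' : ℤ → Submodule k K}
    (hJ : ∀ n c, c ∈ J n ↔ ∀ m, ∀ c' ∈ J' m, c * c' ∈ C.R (n + m))
    (hJ' : ∀ n c, c ∈ J' n ↔ ∀ m, ∀ c' ∈ J m, c * c' ∈ C.R (n + m))
    (fd : ∀ n, FiniteDimensional k (J n)) (fd' : ∀ n, FiniteDimensional k (J' n))
    {b₀ b : ℤ} (hbelow : ∀ n < b₀, J n = ⊥) (hbelow' : ∀ n < b₀, J' n = ⊥)
    (hgen : ∀ n ≥ b, J (n + 1) = J n ⊔ (J n).map (LinearMap.mulLeft k C.η)
      ⊔ (J n).map (LinearMap.mulLeft k C.ζ))
    (hgen' : ∀ n ≥ b, J' (n + 1) = J' n ⊔ (J' n).map (LinearMap.mulLeft k C.η)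
      ⊔ (J' n).map (LinearMap.mulLeft k C.ζ))
    (hne' : ∃ l, J' l ≠ ⊥) (P : Ideal (C.chart s)) (x y : C.chart s) (hx : x ≠ 0)
    (hy : y ∉ Ideal.span {x}) (hP : ∀ z ∈ P, y * z ∈ Ideal.span {x}) :
    ∃ (i l : ℤ) (a b : K) (hab : a * b / s ^ (i + l) ∈ C.chart s),
      a ∈ J i ∧ b ∈ J' l ∧ (⟨_, hab⟩ : C.chart s) ∉ P := by
  classical
  by_contra hno
  set c : K := (y : K) / x with hc
  have hx' : (x : K) ≠ 0 := fun h => hx (Subtype.ext h)
  have hsx : s ≠ 0 := hs.ne_zero
  have hcab : ∀ i l, ∀ a ∈ J i, ∀ b' ∈ J' l, c * (a * b' / s ^ (i + l)) ∈ C.chart s := by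
    intro i l a ha b' hb'
    have hab : a * b' / s ^ (i + l) ∈ C.chart s := div_mem_chart hs ((hJ i a).1 ha l b' hb')
    have hmem : (⟨_, hab⟩ : C.chart s) ∈ P := by
      by_contra h
      exact hno ⟨i, l, a, b', hab, ha, hb', h⟩
    obtain ⟨t, ht⟩ := Ideal.mem_span_singleton'.1 (hP _ hmem)
    have ht' : (t : K) * x = y * (a * b' / s ^ (i + l)) := congrArg Subtype.val ht
    rw [hc, div_mul_eq_mul_div, ← ht', mul_div_cancel_right₀ _ hx']
    exact t.2
  let T : Finset K := (Finset.Icc b₀ b).biUnion fun l =>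
    haveI := fd' l
    Finset.univ.image fun q => ((Module.finBasis k (J' l) q : J' l) : K) / s ^ l
  set M := Submodule.span (C.chart s) (T : Set K) with hM
  have hMk : ∀ (r : k) (v : K), v ∈ M → r • v ∈ M := fun r v hv => by
    rw [← algebraMap_smul (C.chart s) r v]
    exact M.smul_mem _ hv
  let Y : ℤ → Submodule k K := fun l => (M.restrictScalars k).comap (LinearMap.mulRight k (s ^ l)⁻¹)
  have hY : ∀ l v, v ∈ Y l ↔ v / s ^ l ∈ M := fun l v => by
    rw [div_eq_mul_inv]; rfl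
  have hJM : ∀ l, ∀ v ∈ J' l, v / s ^ l ∈ M := by
    intro l v hv
    refine (hY l v).1 (gen_le hbelow' hgen' Y (fun n hn0 hn1 v hv => ?_) (fun e he n v hv => ?_) l hv)
    · have := fd' n
      have hr := congrArg (fun w : J' n => (w : K))
        ((Module.finBasis k (J' n)).sum_repr ⟨v, hv⟩)
      simp only [Submodule.coe_sum, Submodule.coe_smul] at hr
      rw [← hr]
      refine sum_mem fun q _ => Submodule.smul_mem _ _ ((hY n _).2 (Submodule.subset_span ?_))
      exact Finset.mem_biUnion.2 ⟨n, Finset.mem_Icc.2 ⟨hn0, hn1⟩,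
        Finset.mem_image.2 ⟨q, by simp, rfl⟩⟩
    · rw [hY] at hv ⊢
      have he1 : e / s ∈ C.chart s := by simpa using div_mem_chart hs he.mem_one
      have h := M.smul_mem ⟨_, he1⟩ hv
      rw [Subalgebra.smul_def, smul_eq_mul] at h
      convert h using 1
      rw [zpow_add_one₀ hsx]
      field_simp
  have hcJ : ∀ l, ∀ b' ∈ J' l, ∃ m : ℤ, c * b' * s ^ m ∈ J' (l + m) := by
    intro l b' hb'
    have hev : ∀ i, ∀ a ∈ J i, ∀ᶠ m : ℤ in Filter.atTop,
        c * b' * s ^ m * a ∈ C.R (l + m + i) := by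
      intro i a ha
      obtain ⟨N, hN⟩ := (mem_chart_iff hs).1 (hcab i l a ha b' hb')
      filter_upwards [Filter.eventually_ge_atTop (N - (i + l))] with m hm
      have h := pow_mem hs hN (m := l + m + i) (by omega)
      convert h using 1
      rw [show l + m + i = i + l + m by ring, zpow_add₀ hsx (i + l) m]
      field_simp
    have hall : ∀ᶠ m : ℤ in Filter.atTop, ∀ i ∈ Finset.Icc b₀ b, ∀ a ∈ J i,
        c * b' * s ^ m * a ∈ C.R (l + m + i) := by
      rw [Filter.eventually_all_finset]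
      intro i _
      have := fd i
      let B := Module.finBasis k (J i)
      filter_upwards [Filter.eventually_all.2 fun q => hev i _ (B q).2] with m hm a ha
      have hr := congrArg (fun w : J i => (w : K)) (B.sum_repr ⟨a, ha⟩)
      simp only [Submodule.coe_sum, Submodule.coe_smul] at hr
      rw [← hr, Finset.mul_sum]
      refine sum_mem fun q _ => ?_
      rw [mul_smul_comm]
      exact Submodule.smul_mem _ _ (hm q)
    obtain ⟨m, hm⟩ := hall.exists
    refine ⟨m, (hJ' _ _).2 fun i a ha => ?_⟩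
    exact gen_le hbelow hgen
      (fun i => (C.R (l + m + i)).comap (LinearMap.mulLeft k (c * b' * s ^ m)))
      (fun n h0 h1 v hv => hm n (Finset.mem_Icc.2 ⟨h0, h1⟩) v hv)
      (fun e he n v hv => by
        rw [Submodule.mem_comap, LinearMap.mulLeft_apply] at hv ⊢
        rw [← mul_assoc, ← add_assoc]
        exact mul_std_mem he hv) i ha
  have hstab : ∀ v ∈ M, c • v ∈ M := by
    intro v hv
    rw [hM] at hv
    induction hv using Submodule.span_induction with
    | mem v hv =>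
      obtain ⟨l, -, hl⟩ := Finset.mem_biUnion.1 hv
      obtain ⟨q, -, rfl⟩ := Finset.mem_image.1 hl
      have := fd' l
      obtain ⟨m, hm⟩ := hcJ l _ (Module.finBasis k (J' l) q).2
      have := hJM _ _ hm
      convert this using 1
      rw [smul_eq_mul, zpow_add₀ hsx]
      field_simp
    | zero => simp
    | add u v _ _ hu hv => rw [smul_add]; exact add_mem hu hv
    | smul r v _ hv => rw [smul_comm]; exact M.smul_mem r hv
  have hMne : M ≠ ⊥ := by
    obtain ⟨l, hl⟩ := hne'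
    obtain ⟨v, hv, hv0⟩ := Submodule.exists_mem_ne_zero_of_ne_bot hl
    intro h
    have := hJM l v hv
    rw [h, Submodule.mem_bot, div_eq_zero_iff] at this
    exact this.elim hv0 (zpow_ne_zero _ hsx)
  have hint : IsIntegral (C.chart s) c :=
    isIntegral_of_smul_mem_submodule M hMne ⟨T, rfl⟩ c hstab
  have hcx : c * (x : K) = y := div_mul_cancel₀ _ hx'
  have hmem := mem_of_isIntegral hC hs hint hx (hcx ▸ y.2)
  exact hy (Ideal.mem_span_singleton'.2 ⟨⟨c, hmem⟩, Subtype.ext hcx⟩)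

theorem mem_span_of_regular {B : Type*} [CommRing B] [IsDomain B] {x u y z : B} (hx0 : x ≠ 0)
    (hu0 : u ≠ 0) (hx : ∀ w, w * z ∈ Ideal.span {x} → w ∈ Ideal.span {x})
    (hu : ∀ w, w * z ∈ Ideal.span {u} → w ∈ Ideal.span {u}) :
    ∀ N : ℕ, y * z ∈ Ideal.span {x * u ^ N} → y ∈ Ideal.span {x * u ^ N} := by
  intro N
  induction N with
  | zero => simpa using hx y
  | succ N ih =>
    intro h
    obtain ⟨t, ht⟩ := Ideal.mem_span_singleton'.1 h
    obtain ⟨y', rfl⟩ := Ideal.mem_span_singleton'.1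
      (ih (Ideal.mem_span_singleton'.2 ⟨t * u, by rw [← ht]; ring⟩))
    have hc : (y' * z) * (x * u ^ N) = (t * u) * (x * u ^ N) := by
      linear_combination -ht
    have h1 := mul_right_cancel₀ (mul_ne_zero hx0 (pow_ne_zero N hu0)) hc
    obtain ⟨y'', rfl⟩ := Ideal.mem_span_singleton'.1
      (hu y' (Ideal.mem_span_singleton'.2 ⟨t, h1.symm⟩))
    exact Ideal.mem_span_singleton'.2 ⟨y'', by ring⟩

/-- The associated primes of the quotient by a principal ideal. -/
abbrev Ass {B : Type*} [CommRing B] (x : B) : Set (Ideal B) :=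
  associatedPrimes B (B ⧸ Ideal.span {x})

theorem ass_finite {B : Type*} [CommRing B] [IsNoetherianRing B] (x : B) : (Ass x).Finite :=
  associatedPrimes.finite _ _

theorem ass_witness {B : Type*} [CommRing B] [IsNoetherianRing B] {x : B} {P : Ideal B}
    (hP : P ∈ Ass x) : ∃ y, y ∉ Ideal.span {x} ∧ ∀ z ∈ P, y * z ∈ Ideal.span {x} := by
  obtain ⟨hprime, y, hy⟩ := isAssociatedPrime_iff.1 hP
  obtain ⟨y, rfl⟩ := Ideal.Quotient.mk_surjective y
  refine ⟨y, fun h => ?_, fun z hz => ?_⟩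
  · apply hprime.ne_top
    rw [hy, Ideal.Quotient.eq_zero_iff_mem.2 h]
    simp
  · rw [hy, Submodule.mem_colon_singleton, Submodule.mem_bot] at hz
    rw [← Ideal.Quotient.eq_zero_iff_mem, mul_comm]
    exact hz

theorem regular_of_notMem_ass {B : Type*} [CommRing B] [IsNoetherianRing B] {x z : B}
    (hz : ∀ P ∈ Ass x, z ∉ P) {w : B} (hw : w * z ∈ Ideal.span {x}) : w ∈ Ideal.span {x} := by
  by_contra hne
  have hzd : z ∈ ⋃ P ∈ Ass x, (P : Set B) := by
    rw [biUnion_associatedPrimes_eq_zero_divisors]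
    refine ⟨Ideal.Quotient.mk _ w, fun h => hne (Ideal.Quotient.eq_zero_iff_mem.1 h), ?_⟩
    exact (Ideal.Quotient.eq_zero_iff_mem).2 (by rwa [mul_comm] at hw : z * w ∈ Ideal.span {x})
  simp only [Set.mem_iUnion] at hzd
  obtain ⟨P, hP, hzP⟩ := hzd
  exact hz P hP hzP

theorem exists_avoid {B : Type*} [CommRing B] (F : Finset (Ideal B)) (hF : ∀ P ∈ F, P.IsPrime)
    (Z : Ideal B) (h : ∀ P ∈ F, ¬ Z ≤ P) : ∃ z ∈ Z, ∀ P ∈ F, z ∉ P := by
  by_contra hno
  push Not at hno
  obtain ⟨P, hP, hle⟩ := (Ideal.subset_union_prime (f := fun P : Ideal B => P) ⊤ ⊤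
    (fun P hP _ _ => hF P hP) (I := Z)).1 (fun z hz => by
      obtain ⟨P, hP, hzP⟩ := hno z hz
      exact Set.mem_biUnion hP hzP)
  exact h P hP hle

/-- Two families that are each other's colon in the ring have sections of one degree without a
common divisor. -/
theorem exists_pair [IsAlgClosed k] (hC : C.Smooth) (J J' : ℤ → Submodule k K)
    (hJ : ∀ n c, c ∈ J n ↔ ∀ m, ∀ c' ∈ J' m, c * c' ∈ C.R (n + m))
    (hJ' : ∀ n c, c ∈ J' n ↔ ∀ m, ∀ c' ∈ J m, c * c' ∈ C.R (n + m))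
    (hne : ∃ n, J n ≠ ⊥) (hne' : ∃ n, J' n ≠ ⊥)
    (fd : ∀ n, FiniteDimensional k (J n)) (fd' : ∀ n, FiniteDimensional k (J' n))
    (hbelow : ∃ n₀, ∀ n < n₀, J n = ⊥) (hbelow' : ∃ n₀, ∀ n < n₀, J' n = ⊥)
    (hgen : ∃ b, ∀ n ≥ b, J (n + 1) = J n ⊔ (J n).map (LinearMap.mulLeft k C.η)
      ⊔ (J n).map (LinearMap.mulLeft k C.ζ))
    (hgen' : ∃ b, ∀ n ≥ b, J' (n + 1) = J' n ⊔ (J' n).map (LinearMap.mulLeft k C.η)
      ⊔ (J' n).map (LinearMap.mulLeft k C.ζ)) :
    ∃ (j : ℕ) (σ τ : K), σ ∈ J' j ∧ τ ∈ J j ∧ σ ≠ 0 ∧ τ ≠ 0 ∧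
      ∀ (n : ℤ) (h : K), h * σ ∈ J' (n + j) → h * τ ∈ J (n + j) → h ∈ C.R n := by
  classical
  obtain ⟨n₀, hn₀⟩ := hbelow
  obtain ⟨n₀', hn₀'⟩ := hbelow'
  obtain ⟨b, hb⟩ := hgen
  obtain ⟨b', hb'⟩ := hgen'
  obtain ⟨j₀, hj₀⟩ := hne'
  obtain ⟨σ, hσ, hσ0⟩ := Submodule.exists_mem_ne_zero_of_ne_bot hj₀
  obtain ⟨i₀, hi₀⟩ := hne
  obtain ⟨a₀, ha₀, ha0⟩ := Submodule.exists_mem_ne_zero_of_ne_bot hi₀
  let S : Finset K := {1, C.η}
  have hS : ∀ s : S, IsStd C (s : K) := fun s => by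
    have := s.2
    simp only [S, Finset.mem_insert, Finset.mem_singleton] at this
    rcases this with h | h <;> simp [IsStd, h]
  have hx₀ : ∀ s : S, σ * a₀ / (s : K) ^ (j₀ + i₀) ∈ C.chart (s : K) := fun s =>
    div_mem_chart (hS s) ((hJ' j₀ σ).1 hσ i₀ a₀ ha₀)
  have hu : ∀ s : S, 1 / (s : K) ^ (1 : ℤ) ∈ C.chart (s : K) := fun s =>
    div_mem_chart (hS s) C.one_mem
  let x₀ : ∀ s : S, C.chart (s : K) := fun s => ⟨_, hx₀ s⟩
  let u : ∀ s : S, C.chart (s : K) := fun s => ⟨_, hu s⟩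
  let Ps : ∀ s : S, Set (Ideal (C.chart (s : K))) := fun s => Ass (x₀ s) ∪ Ass (u s)
  have hfin : ∀ s : S, (Ps s).Finite := fun s => by
    have := isNoetherianRing (hS s)
    exact (ass_finite _).union (ass_finite _)
  have hx0ne : ∀ s : S, x₀ s ≠ 0 := fun s h => by
    have := congrArg Subtype.val h
    simp [x₀, hσ0, ha0, (zpow_ne_zero _ (hS s).ne_zero)] at this
  have hune : ∀ s : S, u s ≠ 0 := fun s h => by
    have := congrArg Subtype.val h
    simp [u, (hS s).ne_zero] at this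
  let I := Σ s : S, (hfin s).toFinset
  have hmiss : ∀ q : I, ∃ (i l : ℤ) (a b : K) (hab : a * b / (q.1 : K) ^ (i + l) ∈ C.chart (q.1 : K)),
      a ∈ J i ∧ b ∈ J' l ∧ (⟨_, hab⟩ : C.chart (q.1 : K)) ∉ (q.2 : Ideal (C.chart (q.1 : K))) := by
    rintro ⟨s, P, hP⟩
    have := isNoetherianRing (hS s)
    have key : ∀ x : C.chart (s : K), x ≠ 0 → P ∈ Ass x →
        ∃ (i l : ℤ) (a b : K) (hab : a * b / (s : K) ^ (i + l) ∈ C.chart (s : K)),
          a ∈ J i ∧ b ∈ J' l ∧ (⟨_, hab⟩ : C.chart (s : K)) ∉ P := by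
      intro x hx hPx
      obtain ⟨y, hy, hyz⟩ := ass_witness hPx
      exact exists_notMem hC (hS s) hJ hJ' fd fd' (b₀ := min n₀ n₀') (b := max b b')
        (fun n hn => hn₀ n (by omega)) (fun n hn => hn₀' n (by omega))
        (fun n hn => hb n (by omega)) (fun n hn => hb' n (by omega)) ⟨j₀, hj₀⟩ P x y hx hy hyz
    rcases (hfin s).mem_toFinset.1 hP with h | h
    exacts [key _ (hx0ne s) h, key _ (hune s) h]
  choose i l a bb hab ha hbb hnot using hmiss
  have hIfin : Finite I := inferInstance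
  obtain ⟨j, hji, hjj, hji₀⟩ : ∃ j : ℕ, (∀ q, i q ≤ j) ∧ j₀ ≤ j ∧ i₀ ≤ j := by
    have := Fintype.ofFinite I
    refine ⟨(Finset.univ.sup fun q => (i q).toNat) + j₀.toNat + i₀.toNat, fun q => ?_, ?_, ?_⟩
    · have : (i q).toNat ≤ Finset.univ.sup fun q => (i q).toNat :=
        Finset.le_sup (f := fun q => (i q).toNat) (Finset.mem_univ q)
      omega
    · omega
    · omega
  let W : I → Submodule k (J j) := fun q =>
    ⨅ (m : ℤ), ⨅ (b : J' m), ((q.2 : Ideal (C.chart (q.1 : K))).restrictScalars k).comap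
      (LinearMap.codRestrict (Subalgebra.toSubmodule (C.chart (q.1 : K)))
        (LinearMap.mulRight k ((b : K) / (q.1 : K) ^ ((j : ℤ) + m)) ∘ₗ (J (j : ℤ)).subtype)
        fun τ => show (τ : K) * ((b : K) / (q.1 : K) ^ ((j : ℤ) + m)) ∈ C.chart (q.1 : K) by
          rw [← mul_div_assoc]
          exact div_mem_chart (hS q.1) ((hJ j τ).1 τ.2 m b b.2))
  have hWmem : ∀ q (τ : J j), τ ∈ W q ↔ ∀ m, ∀ b ∈ J' m,
      ∀ h : (τ : K) * b / (q.1 : K) ^ ((j : ℤ) + m) ∈ C.chart (q.1 : K),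
        (⟨_, h⟩ : C.chart (q.1 : K)) ∈ (q.2 : Ideal (C.chart (q.1 : K))) := by
    intro q τ
    simp only [W, Submodule.mem_iInf, Submodule.mem_comap, Submodule.restrictScalars_mem,
      Subtype.forall]
    refine forall₃_congr fun m b hb => ?_
    have heq := mul_div_assoc (τ : K) b ((q.1 : K) ^ ((j : ℤ) + m))
    constructor
    · intro h hm
      simpa only [LinearMap.codRestrict, LinearMap.coe_mk, AddHom.coe_mk, LinearMap.comp_apply,
        Submodule.coe_subtype, LinearMap.mulRight_apply, ← heq] using! h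
    · intro h
      have := h (div_mem_chart (hS q.1) ((hJ j τ).1 τ.2 m b hb))
      simp only [heq] at this
      exact this
  have hWne : ∀ q : Option I, (q.elim ⊥ W : Submodule k (J j)) ≠ ⊤ := by
    rintro (_ | q)
    · intro h
      have hmem : (⟨a₀ * (1 : K) ^ ((j : ℤ) - i₀), colon_pow hJ (by simp [IsStd]) ha₀ hji₀⟩ : J j)
          ∈ (⊥ : Submodule k (J j)) := by
        rw [show (⊥ : Submodule k (J j)) = ⊤ from h]; exact Submodule.mem_top
      rw [Submodule.mem_bot] at hmem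
      exact ha0 (by simpa using congrArg Subtype.val hmem)
    · intro h
      have hsq := (hS q.1).ne_zero
      have hmem : (⟨_, colon_pow hJ (hS q.1) (ha q) (hji q)⟩ : J j) ∈ W q := by
        rw [show W q = ⊤ from h]; exact Submodule.mem_top
      rw [hWmem] at hmem
      have heq : a q * (q.1 : K) ^ ((j : ℤ) - i q) * bb q / (q.1 : K) ^ ((j : ℤ) + l q)
          = a q * bb q / (q.1 : K) ^ (i q + l q) := by
        rw [zpow_sub₀ hsq, zpow_add₀ hsq, zpow_add₀ hsq]
        field_simp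
      apply hnot q
      convert hmem (l q) (bb q) (hbb q) (heq ▸ hab q) using 1
      exact Subtype.ext heq.symm
  have : Infinite k := IsAlgClosed.instInfinite
  obtain ⟨τ, hτ⟩ := Submodule.exists_forall_notMem_of_forall_ne_top _ hWne
  have hσj : σ ∈ J' j := by simpa using colon_pow hJ' (s := (1 : K)) (by simp [IsStd]) hσ hjj
  refine ⟨j, σ, τ, hσj, τ.2, hσ0, fun h => hτ none ?_, fun n e he1 he2 => ?_⟩
  · simp only [Option.elim_none, Submodule.mem_bot]
    exact Subtype.ext h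
  have hchart : ∀ s : S, e / (s : K) ^ n ∈ C.chart (s : K) := by
    intro s
    have hs := hS s
    have hsne := hs.ne_zero
    have := isNoetherianRing hs
    obtain ⟨N, hN⟩ : ∃ N : ℕ, (j : ℤ) = j₀ + N := ⟨((j : ℤ) - j₀).toNat, by omega⟩
    set x : C.chart (s : K) := x₀ s * u s ^ N with hx
    have hxK : (x : K) = σ * a₀ / (s : K) ^ ((j : ℤ) + i₀) := by
      rw [hN]
      simp only [hx, x₀, u, Subalgebra.coe_mul, Subalgebra.coe_pow, zpow_add₀ hsne, zpow_natCast,
        zpow_one, div_pow, one_pow]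
      field_simp
    let Z : Ideal (C.chart (s : K)) :=
      { carrier := {z | e / (s : K) ^ n * (z : K) ∈ C.chart (s : K)}
        zero_mem' := by simp
        add_mem' := fun {p q} hp hq => by
          simpa [mul_add] using add_mem hp hq
        smul_mem' := fun r p hp => by
          have h := mul_mem r.2 hp
          show e / (s : K) ^ n * ((r * p : C.chart (s : K)) : K) ∈ C.chart (s : K)
          rw [Subalgebra.coe_mul, mul_left_comm]
          exact h }
    have hxZ : x ∈ Z := by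
      show e / (s : K) ^ n * (x : K) ∈ C.chart (s : K)
      have := div_mem_chart hs ((hJ' _ _).1 he1 i₀ a₀ ha₀)
      convert this using 1
      rw [hxK, zpow_add₀ hsne, zpow_add₀ hsne, zpow_add₀ hsne]
      field_simp
    obtain ⟨z, hzZ, hz⟩ := exists_avoid (hfin s).toFinset (fun P hP => by
        rcases (hfin s).mem_toFinset.1 hP with h | h <;> exact IsAssociatedPrime.isPrime h) Z
      (fun P hP hle => by
        apply hτ (some ⟨s, P, hP⟩)
        simp only [Option.elim_some]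
        rw [hWmem]
        intro m b hb h
        refine hle ?_
        show e / (s : K) ^ n * ((τ : K) * b / (s : K) ^ ((j : ℤ) + m)) ∈ C.chart (s : K)
        have := div_mem_chart hs ((hJ _ _).1 he2 m b hb)
        convert this using 1
        rw [zpow_add₀ hsne, zpow_add₀ hsne, zpow_add₀ hsne]
        field_simp)
    have hy := mem_span_of_regular (y := ⟨_, hxZ⟩) (hx0ne s) (hune s)
      (fun w hw => regular_of_notMem_ass
        (fun P hP => hz P ((hfin s).mem_toFinset.2 (Or.inl hP))) hw)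
      (fun w hw => regular_of_notMem_ass
        (fun P hP => hz P ((hfin s).mem_toFinset.2 (Or.inr hP))) hw) N
      (Ideal.mem_span_singleton'.2 ⟨⟨_, hzZ⟩, Subtype.ext (by
        simp only [hx, Subalgebra.coe_mul]; ring)⟩)
    obtain ⟨t, ht⟩ := Ideal.mem_span_singleton'.1 hy
    have hxne : (x : K) ≠ 0 := fun h =>
      mul_ne_zero (hx0ne s) (pow_ne_zero N (hune s)) (Subtype.ext h)
    have : (t : K) = e / (s : K) ^ n := mul_right_cancel₀ hxne (congrArg Subtype.val ht)
    exact this ▸ t.2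
  refine mem_of_charts hC ?_ (hchart ⟨C.η, by simp [S]⟩)
  simpa using hchart ⟨1, by simp [S]⟩

end Vale.Agent.P190.Bound.Pair
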