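import Vale.Agent.P190.Bound.RR
import Vale.Agent.P190.Bound.Pair

/-! P190: the pair property of a smooth cone. -/

namespace Vale.Agent.P190.Bound

variable {k K : Type} [Field k] [Field K] [Algebra k K] {C : Cone k K}

/-- A smooth cone has the pair property. -/
theorem pairProp [IsAlgClosed k] (hC : C.Smooth) : PairProp C := fun J J' hJ hJ' h => by
  obtain ⟨⟨n, c, hc, hc0⟩, fd, hb, hg⟩ := h J (by simp)
  obtain ⟨⟨n', c', hc', hc0'⟩, fd', hb', hg'⟩ := h J' (by simp)
  exact Pair.exists_pair hC J J' hJ hJ' ⟨n, fun e => hc0 (by simpa [e] using hc)⟩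
    ⟨n', fun e => hc0' (by simpa [e] using hc')⟩ fd fd' hb hb' hg hg'

end Vale.Agent.P190.Bound
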