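import Vale.Agent.P190.Bound.HullQuad
import Vale.Agent.P190.Bound.PairGlue
import Vale.Agent.P190.Bound.H0Glue
import Vale.Agent.P190.Hilb.Bound0
import Vale.Agent.P190.Hilb.Bridge
import Vale.Agent.P190.Spec

/-!
The bound `K² - 8χ ≤ 10 d` from the slopes of the Frobenius pull-back.
-/

open Filter Module Submodule

namespace Vale.Agent.P190.Bound

open Vale.Agent.P190 Hilb

variable {k K : Type} [Field k] [Field K] [Algebra k K] {C : Cone k K} {r : ℕ}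
  {N : ℤ → Submodule k (Fin r → K)} {a : ℤ} {w : K}

/-- All parts of `X` have centred slope at most `T`. -/
def SlopesLe (C : Cone k K) (a : ℤ) (X : ℤ → Submodule k (Fin r → K)) (T : ℚ) : Prop :=
  ∀ V : Submodule K (Fin r → K), V ≠ ⊥ → ∀ β γ : ℚ,
    Quad a (Cone.part X V) (((C.d * finrank K V : ℕ) : ℚ) / 2) β γ →
      β ≤ ((C.d * finrank K V : ℕ) : ℚ) * T

theorem posSq_le {u v : ℚ} (h : u ≤ v) (hv : 0 ≤ v) : posSq u ≤ v ^ 2 / 2 := by
  have := max_le h hv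
  have := le_max_right u 0
  unfold posSq
  nlinarith

theorem num_arith {D d r p c₀ A γ γ' y x₀ K : ℚ} (e4 : D = d * r)
    (h : D / 2 * x₀ ^ 2 + D * p * y + p ^ 2 * A + γ' ≤ D * (p ^ 2 / 2 + p * K + K ^ 2))
    (hγ' : r * c₀ + p ^ 2 * (γ - r * c₀) ≤ γ') (hex : -D / 8 ≤ A + γ) (hy : -(1 / 4) ≤ y)
    (hD : 0 ≤ D) (hp : 0 ≤ p) (hx : 0 ≤ x₀ ^ 2) :
    r * ((-8 * c₀) * (p ^ 2 - 1)) ≤ r * (d * (5 * p ^ 2 + 8 * p * (K + 1 / 4) + 8 * K ^ 2)) := by
  subst e4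
  linarith [mul_le_mul_of_nonneg_left hy (mul_nonneg hD hp), mul_nonneg hD hx,
    mul_le_mul_of_nonneg_left hex (sq_nonneg p)]

/-- The numerical inequality. -/
theorem num_sq_le [IsAlgClosed k] {p : ℕ} [Fact p.Prime] [CharP k p] (hS : C.Smooth)
    (hω : OmegaData C a w) (ha : 0 ≤ a) (hr : 0 < r) (hN : C.IsMod N) (hW : C.Window N) {c₀ : ℚ}
    (hqR : Quad a (one1 C.R) ((C.d : ℚ) / 2) 0 c₀) {B : ℕ}
    (hsl : ∀ β γ : ℚ, Quad a N (((C.d * r : ℕ) : ℚ) / 2) β γ →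
      SlopesLe C a (colon C (colon C (Colength.frobFam C p N)))
          (p * (β / ((C.d * r : ℕ) : ℚ) + 1 / 2) + B) ∧
        SlopesLe C a (colon C (Colength.frobFam C p N))
          (p * (-(β / ((C.d * r : ℕ) : ℚ)) + 1 / 2) + B)) :
    (-8 * c₀) * ((p : ℚ) ^ 2 - 1) ≤
      C.d * (5 * (p : ℚ) ^ 2 + 8 * p * ((B + C.g + 1) + 1 / 4) + 8 * ((B : ℚ) + C.g + 1) ^ 2) := by
  have : Infinite k := IsAlgClosed.instInfinite
  obtain ⟨e, c, hP, hex, -⟩ := hW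
  set D : ℚ := ((C.d * r : ℕ) : ℚ) with hD
  have hD0 : 0 < D := by rw [hD]; exact_mod_cast Nat.mul_pos C.d_pos hr
  have hq : Quad a N (D / 2) _ _ := quad_of_hasPoly hP
  generalize hβ : D * (a : ℚ) / 2 + 3 * D / 2 + e = β at hq
  generalize hγ : D * (((a : ℚ) / 2 + 2) * ((a : ℚ) / 2 + 1)) / 2 + e * ((a : ℚ) / 2 + 1) + c = γ at hq
  obtain ⟨hG, γ', hqG, hγ'⟩ := hull_quad (p := p) hS hω (pairProp hS) hN hq hqR
  obtain ⟨hsl₁, hsl₂⟩ := hsl β γ hq

  have hG' : C.IsMod (colon C (Colength.frobFam C p N)) := by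
    rw [← show colon C (colon C (colon C (Colength.frobFam C p N))) =
      colon C (Colength.frobFam C p N) from funext colon_colon_colon]
    exact isMod_colon hω stable_colon (fam_of_isMod hG)
  -- the centred shift
  set σ : ℚ := β / D with hσ
  have hσD : β = D * σ := by rw [hσ]; field_simp
  obtain ⟨j, hj⟩ : ∃ j : ℤ, |σ + j| ≤ 1 / 2 :=
    ⟨-round σ, by simpa [sub_eq_add_neg] using abs_sub_round σ⟩
  have hj1 := (abs_le.1 hj).1
  have hj2 := (abs_le.1 hj).2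
  set n₀ : ℤ := a / 2 with hn₀
  have hx0 : (a : ℚ) / 2 - 1 / 2 ≤ n₀ ∧ (n₀ : ℚ) ≤ (a : ℚ) / 2 := by
    have h1 : a - 1 ≤ 2 * n₀ := by omega
    have h2 : 2 * n₀ ≤ a := by omega
    have h1' : (a : ℚ) - 1 ≤ 2 * n₀ := by exact_mod_cast h1
    have h2' : 2 * (n₀ : ℚ) ≤ a := by exact_mod_cast h2
    constructor <;> linarith
  set n : ℤ := n₀ + (p : ℤ) * j with hn
  -- Riemann-Roch against the two bounds
  obtain ⟨e', c', hP', hle⟩ := isMod_hasPoly C hG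
  obtain ⟨hb1, hb2⟩ := quad_unique (quad_of_hasPoly hP') hqG
  have hdual : finrank k (dualFam C.η C.ζ (colon C (colon C (Colength.frobFam C p N))) (-n)) =
      finrank k (colon C (Colength.frobFam C p N) (a - n)) := by
    rw [← colon_colon_colon (C := C) (N := Colength.frobFam C p N) (a - n),
      finrank_colon hω stable_colon, show a - n - a = -n by ring]
  have h := hle n
  rw [hdual] at h
  have h1 := h0_glue C hG hsl₁ n
  have h2 := h0_glue C hG' hsl₂ (a - n)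
  have hp : (2 : ℚ) ≤ p := by exact_mod_cast (Fact.out : p.Prime).two_le
  have hB : (0 : ℚ) ≤ B := Nat.cast_nonneg _
  have hg : (0 : ℚ) ≤ C.g := Nat.cast_nonneg _
  have hu1 : 0 ≤ (p : ℚ) * (σ + j + 1 / 2) := mul_nonneg (by linarith) (by linarith)
  have hu2 : 0 ≤ (p : ℚ) * (1 / 2 - (σ + j)) := mul_nonneg (by linarith) (by linarith)
  have p1 := posSq_le (u := (n : ℚ) - (a : ℚ) / 2 + (p * (σ + 1 / 2) + B) + C.g + 1 / 2)
    (v := p * (σ + j + 1 / 2) + (B + C.g + 1)) (by rw [hn]; push_cast; linarith) (by linarith)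
  have p2 := posSq_le
    (u := ((a - n : ℤ) : ℚ) - (a : ℚ) / 2 + (p * (-σ + 1 / 2) + B) + C.g + 1 / 2)
    (v := p * (1 / 2 - (σ + j)) + (B + C.g + 1)) (by rw [hn]; push_cast; linarith) (by linarith)
  have h' : D / 2 * ((n : ℚ) - (a : ℚ) / 2) ^ 2 + (p : ℚ) * β * ((n : ℚ) - (a : ℚ) / 2) + γ' ≤
      D * ((p * (σ + j + 1 / 2) + (B + C.g + 1)) ^ 2 / 2) +
        D * ((p * (1 / 2 - (σ + j)) + (B + C.g + 1)) ^ 2 / 2) := by
    have e1 : ((C.d * r : ℕ) : ℚ) * ((n + 2) * (n + 1) / 2) + e' * (n + 1) + c' =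
        D / 2 * ((n : ℚ) - (a : ℚ) / 2) ^ 2 + (p : ℚ) * β * ((n : ℚ) - (a : ℚ) / 2) + γ' := by
      rw [← hb1, ← hb2, ← hD]; ring
    rw [e1] at h
    rw [← hD] at h1 h2
    linarith [mul_le_mul_of_nonneg_left p1 hD0.le, mul_le_mul_of_nonneg_left p2 hD0.le]
  -- the excess of the shifted module
  have hex' : -D / 8 ≤ D * (j : ℚ) ^ 2 / 2 + β * j + γ := by
    have e1 : D * (j : ℚ) ^ 2 / 2 + β * j + γ =
        D * (σ + j) ^ 2 / 2 - D / 8 + excess D e c := by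
      rw [excess, hσ, ← hγ, ← hβ]
      field_simp
      ring
    rw [e1]
    linarith [mul_nonneg hD0.le (sq_nonneg (σ + j))]
  set x₀ : ℚ := (n₀ : ℚ) - (a : ℚ) / 2 with hx₀
  have hlin : -(1 / 4) ≤ (σ + j) * x₀ := by
    linarith [mul_nonneg (sub_nonneg.2 hj2) (by linarith [hx0.2] : 0 ≤ -x₀), hx0.1]
  have e2 : D / 2 * ((n : ℚ) - (a : ℚ) / 2) ^ 2 + (p : ℚ) * β * ((n : ℚ) - (a : ℚ) / 2) + γ' =
      D / 2 * x₀ ^ 2 + D * p * ((σ + j) * x₀) + (p : ℚ) ^ 2 * (D * (j : ℚ) ^ 2 / 2 + β * j) + γ' := by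
    rw [hn, hx₀, hσD]
    push_cast
    ring
  have e3 : D * ((p * (σ + j + 1 / 2) + (B + C.g + 1)) ^ 2 / 2) +
      D * ((p * (1 / 2 - (σ + j)) + (B + C.g + 1)) ^ 2 / 2) ≤
      D * ((p : ℚ) ^ 2 / 2 + p * (B + C.g + 1) + ((B : ℚ) + C.g + 1) ^ 2) := by
    have hsq : (σ + j) ^ 2 ≤ 1 / 4 := by
      linarith [mul_nonneg (sub_nonneg.2 hj2) (sub_nonneg.2 hj1)]
    linarith [mul_le_mul_of_nonneg_left hsq (mul_nonneg hD0.le (sq_nonneg (p : ℚ)))]
  have e4 : D = C.d * (r : ℚ) := by rw [hD]; push_cast; ring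
  refine le_of_mul_le_mul_left ?_ (by exact_mod_cast hr : (0 : ℚ) < r)
  exact num_arith e4 (e2 ▸ h'.trans e3) hγ' hex' hlin hD0.le (by linarith) (sq_nonneg x₀)

/-- The slopes of the Frobenius pull-back of a module with a window stay within `p / 2 + O(1)` of
`p` times the slope, on both sides. -/
def SlopeModule : Prop :=
  ∀ d g r : ℕ, 0 < r → ∃ B P₀ : ℕ, ∀ p : ℕ, p.Prime → P₀ ≤ p →
    ∀ (k K : Type) [Field k] [Field K] [Algebra k K] [CharP k p] [IsAlgClosed k] (C : Cone k K),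
      C.d = d → C.g = g → C.Smooth → ∀ (a : ℤ) (w : K), OmegaData C a w →
        ∀ N : ℤ → Submodule k (Fin r → K), C.IsMod N → C.Window N →
          ∀ β γ : ℚ, Quad a N (((C.d * r : ℕ) : ℚ) / 2) β γ →
            SlopesLe C a (colon C (colon C (Colength.frobFam C p N)))
                (p * (β / ((C.d * r : ℕ) : ℚ) + 1 / 2) + B) ∧
              SlopesLe C a (colon C (Colength.frobFam C p N))
                (p * (-(β / ((C.d * r : ℕ) : ℚ)) + 1 / 2) + B)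

theorem finrank_one1 (C : Cone k K) (n : ℤ) : finrank k (one1 C.R n) = finrank k (C.R n) :=
  LinearEquiv.finrank_eq
    { toFun := fun v => ⟨v.1 0, v.2⟩
      invFun := fun c => ⟨fun _ => c.1, c.2⟩
      map_add' := fun _ _ => rfl
      map_smul' := fun _ _ => rfl
      left_inv := fun v => Subtype.ext (funext fun i => by fin_cases i; rfl)
      right_inv := fun _ => rfl }

/-- The data of the canonical family and the centred constant term of the ring. -/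
theorem exists_data_of_sigIs {num : ℚ} (hS : C.Smooth) (h : C.SigIs num) :
    ∃ (a : ℕ) (w : K) (c₀ : ℚ), OmegaData C a w ∧
      Quad (a : ℤ) (one1 C.R) ((C.d : ℚ) / 2) 0 c₀ ∧ num = -8 * c₀ := by
  obtain ⟨a, w, e, c, hw, hω, hP, hnum⟩ := h
  obtain ⟨c₀, hq⟩ := exists_quad_one1 hS (a := (a : ℤ)) (w := w) ⟨hw, hω⟩
  have hq' := quad_of_hasPoly (a := (a : ℤ)) (N := one1 C.R) (D := (C.d : ℚ)) (e := e) (c := c)
    (hP.mono fun n hn => by rw [finrank_one1]; exact hn)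
  obtain ⟨h1, h2⟩ := quad_unique hq' hq
  refine ⟨a, w, c₀, ⟨hw, hω⟩, hq, ?_⟩
  have hd : (C.d : ℚ) ≠ 0 := Nat.cast_ne_zero.2 C.d_pos.ne'
  have he : e = -((C.d : ℚ) * a / 2 + 3 * C.d / 2) := by push_cast at h1; linarith
  rw [hnum, ← h2, excess, he]
  push_cast
  field_simp
  ring

/-- Bounded slopes of Frobenius pull-backs give the bound module. -/
theorem boundModule_of (h : SlopeModule) : BoundModule := by
  intro d g r hr
  obtain ⟨B, P₀, hP₀⟩ := h d g r hr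
  refine ⟨max P₀ (16 * (B + g + 2) ^ 2), fun p hp hle k K _ _ _ _ _ C hd hg hS N hN hW num hnum => ?_⟩
  haveI : Fact p.Prime := ⟨hp⟩
  obtain ⟨a, w, c₀, hω, hqR, rfl⟩ := exists_data_of_sigIs hS hnum
  have hle' : 16 * (B + g + 2) ^ 2 ≤ p := le_trans (le_max_right _ _) hle
  have hsq := num_sq_le (p := p) hS hω (Int.natCast_nonneg a) hr hN hW hqR (B := B)
    fun β γ hq => hP₀ p hp (le_trans (le_max_left _ _) hle) k K C hd hg hS a w hω N hN hW β γ hq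
  rw [hd, hg] at hsq
  have hp' : 16 * ((B : ℚ) + g + 2) ^ 2 ≤ p := by exact_mod_cast hle'
  set M : ℚ := (B : ℚ) + g + 2 with hM
  have hM2 : 2 ≤ M := by
    have : (0 : ℚ) ≤ (B : ℚ) + g := by positivity
    linarith
  have hpp : 16 * M ^ 2 * p ≤ (p : ℚ) * p :=
    mul_le_mul_of_nonneg_right hp' (Nat.cast_nonneg p)
  have hMM : 2 * M ≤ M ^ 2 := by rw [sq]; exact mul_le_mul_of_nonneg_right hM2 (by linarith)
  have hp1 : 64 ≤ (p : ℚ) := by linarith
  have key : 5 * (p : ℚ) ^ 2 + 8 * p * ((B + g + 1) + 1 / 4) + 8 * ((B : ℚ) + g + 1) ^ 2 ≤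
      10 * ((p : ℚ) ^ 2 - 1) := by
    have e1 : 8 * (p : ℚ) * ((B + g + 1) + 1 / 4) ≤ 8 * p * M ^ 2 :=
      mul_le_mul_of_nonneg_left (by linarith) (by linarith)
    have e2 : ((B : ℚ) + g + 1) ^ 2 ≤ M ^ 2 := pow_le_pow_left₀ (by positivity) (by linarith) 2
    have e3 : 64 * (p : ℚ) ≤ p * p := mul_le_mul_of_nonneg_right hp1 (Nat.cast_nonneg p)
    rw [sq (p : ℚ)] at *
    linarith
  have hp2 : (0 : ℚ) < (p : ℚ) ^ 2 - 1 := by
    have e3 : 64 * (p : ℚ) ≤ p * p := mul_le_mul_of_nonneg_right hp1 (Nat.cast_nonneg p)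
    rw [sq]; linarith
  refine le_of_mul_le_mul_right (le_trans hsq ?_) hp2
  refine le_trans (mul_le_mul_of_nonneg_left key (Nat.cast_nonneg d)) (le_of_eq ?_)
  ring

end Vale.Agent.P190.Bound
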