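import Vale.Agent.P190.Bound.Fams

/-!
The coordinate flag of a family and its rank-one pieces.
-/

open Filter Module Submodule

namespace Vale.Agent.P190.Bound

open Vale.Agent.P190 Hilb

variable {k K : Type} [Field k] [Field K] [Algebra k K] {C : Cone k K} {r : ℕ}
  {N : ℤ → Submodule k (Fin r → K)}

/-- The `i`-th coordinate as a vector of length one. -/
noncomputable def toOne (k : Type) {K : Type} [Field k] [Field K] [Algebra k K] {r : ℕ}
    (i : Fin r) : (Fin r → K) →ₗ[k] (Fin 1 → K) where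
  toFun v _ := v i
  map_add' _ _ := rfl
  map_smul' _ _ := rfl

/-- The part with vanishing coordinates from `i` on. -/
noncomputable def lowPart (N : ℤ → Submodule k (Fin r → K)) (i : ℕ) (n : ℤ) :
    Submodule k (Fin r → K) where
  carrier := {v | v ∈ N n ∧ ∀ l : Fin r, i ≤ l.val → v l = 0}
  add_mem' := fun hv hw => ⟨add_mem hv.1 hw.1, fun l hl => by simp [hv.2 l hl, hw.2 l hl]⟩
  zero_mem' := ⟨zero_mem _, fun _ _ => rfl⟩
  smul_mem' := fun c v hv => ⟨Submodule.smul_mem _ c hv.1, fun l hl => by simp [hv.2 l hl]⟩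

/-- The part with vanishing coordinates before `i`. -/
noncomputable def highPart (N : ℤ → Submodule k (Fin r → K)) (i : ℕ) (n : ℤ) :
    Submodule k (Fin r → K) where
  carrier := {v | v ∈ N n ∧ ∀ l : Fin r, l.val < i → v l = 0}
  add_mem' := fun hv hw => ⟨add_mem hv.1 hw.1, fun l hl => by simp [hv.2 l hl, hw.2 l hl]⟩
  zero_mem' := ⟨zero_mem _, fun _ _ => rfl⟩
  smul_mem' := fun c v hv => ⟨Submodule.smul_mem _ c hv.1, fun l hl => by simp [hv.2 l hl]⟩

/-- The `i`-th piece from below. -/
noncomputable def lowPiece (N : ℤ → Submodule k (Fin r → K)) (i : Fin r) (n : ℤ) :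
    Submodule k (Fin 1 → K) :=
  (lowPart N (i.val + 1) n).map (toOne k i)

/-- The `i`-th piece from above. -/
noncomputable def highPiece (N : ℤ → Submodule k (Fin r → K)) (i : Fin r) (n : ℤ) :
    Submodule k (Fin 1 → K) :=
  (highPart N i.val n).map (toOne k i)

theorem mem_lowPart {i : ℕ} {n : ℤ} {v : Fin r → K} :
    v ∈ lowPart N i n ↔ v ∈ N n ∧ ∀ l : Fin r, i ≤ l.val → v l = 0 := Iff.rfl

theorem mem_highPart {i : ℕ} {n : ℤ} {v : Fin r → K} :
    v ∈ highPart N i n ↔ v ∈ N n ∧ ∀ l : Fin r, l.val < i → v l = 0 := Iff.rfl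

theorem lowPart_le (i : ℕ) (n : ℤ) : lowPart N i n ≤ N n := fun _ hv => hv.1

theorem highPart_le (i : ℕ) (n : ℤ) : highPart N i n ≤ N n := fun _ hv => hv.1

theorem low_step (hfd : ∀ n, FiniteDimensional k (N n)) (i : Fin r) (n : ℤ) :
    finrank k (lowPart N (i.val + 1) n) =
      finrank k (lowPiece N i n) + finrank k (lowPart N i.val n) := by
  have := hfd n
  have := Submodule.finiteDimensional_of_le (lowPart_le (N := N) (i.val + 1) n)
  have h := finrank_map_add_ker (toOne k i) (lowPart N (i.val + 1) n)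
  have e : (LinearMap.ker (toOne k i) ⊓ lowPart N (i.val + 1) n : Submodule k (Fin r → K))
      = lowPart N i.val n := by
    ext v
    simp only [Submodule.mem_inf, LinearMap.mem_ker, mem_lowPart]
    refine ⟨fun ⟨h0, hv, hl⟩ => ⟨hv, fun l hl' => ?_⟩, fun ⟨hv, hl⟩ => ⟨?_, hv, fun l hl' => hl l (by omega)⟩⟩
    · rcases eq_or_lt_of_le hl' with h' | h'
      · rw [← Fin.ext h']; exact congrFun h0 0
      · exact hl l h'
    · funext _; exact hl i le_rfl
  rw [e] at h
  exact h.symm

theorem high_step (hfd : ∀ n, FiniteDimensional k (N n)) (i : Fin r) (n : ℤ) :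
    finrank k (highPart N i.val n) =
      finrank k (highPiece N i n) + finrank k (highPart N (i.val + 1) n) := by
  have := hfd n
  have := Submodule.finiteDimensional_of_le (highPart_le (N := N) i.val n)
  have h := finrank_map_add_ker (toOne k i) (highPart N i.val n)
  have e : (LinearMap.ker (toOne k i) ⊓ highPart N i.val n : Submodule k (Fin r → K))
      = highPart N (i.val + 1) n := by
    ext v
    simp only [Submodule.mem_inf, LinearMap.mem_ker, mem_highPart]
    refine ⟨fun ⟨h0, hv, hl⟩ => ⟨hv, fun l hl' => ?_⟩, fun ⟨hv, hl⟩ => ⟨?_, hv, fun l hl' => hl l (by omega)⟩⟩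
    · rcases eq_or_lt_of_le (Nat.lt_succ_iff.1 hl') with h' | h'
      · rw [Fin.ext h']; exact congrFun h0 0
      · exact hl l h'
    · funext _; exact hl i (Nat.lt_succ_self _)
  rw [e] at h
  exact h.symm

theorem sum_lowPiece (hfd : ∀ n, FiniteDimensional k (N n)) (n : ℤ) :
    ∑ i : Fin r, finrank k (lowPiece N i n) = finrank k (N n) := by
  have h : ∀ i : ℕ, i ≤ r → ∑ l ∈ Finset.univ.filter (fun l : Fin r => l.val < i),
      finrank k (lowPiece N l n) = finrank k (lowPart N i n) := by
    intro i hi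
    induction i with
    | zero =>
      have : lowPart N 0 n = ⊥ := by
        rw [eq_bot_iff]
        exact fun v hv => (Submodule.mem_bot k).2 (funext fun l => hv.2 l (Nat.zero_le _))
      rw [this]; simp
    | succ i ih =>
      have e : Finset.univ.filter (fun l : Fin r => l.val < i + 1) =
          insert (⟨i, hi⟩ : Fin r) (Finset.univ.filter fun l : Fin r => l.val < i) := by
        ext l
        simp only [Finset.mem_filter, Finset.mem_univ, true_and, Finset.mem_insert, Fin.ext_iff]
        omega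
      rw [e, Finset.sum_insert (by simp), ih (by omega)]
      exact (low_step hfd ⟨i, hi⟩ n).symm
  have htop : lowPart N r n = N n :=
    le_antisymm (lowPart_le r n) fun v hv => ⟨hv, fun l hl => absurd l.isLt (by omega)⟩
  have := h r le_rfl
  rw [htop] at this
  simpa using this

theorem sum_highPiece (hfd : ∀ n, FiniteDimensional k (N n)) (n : ℤ) :
    ∑ i : Fin r, finrank k (highPiece N i n) = finrank k (N n) := by
  have h : ∀ i : ℕ, i ≤ r → ∑ l ∈ Finset.univ.filter (fun l : Fin r => l.val < i),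
      finrank k (highPiece N l n) + finrank k (highPart N i n) = finrank k (highPart N 0 n) := by
    intro i hi
    induction i with
    | zero => simp
    | succ i ih =>
      have e : Finset.univ.filter (fun l : Fin r => l.val < i + 1) =
          insert (⟨i, hi⟩ : Fin r) (Finset.univ.filter fun l : Fin r => l.val < i) := by
        ext l
        simp only [Finset.mem_filter, Finset.mem_univ, true_and, Finset.mem_insert, Fin.ext_iff]
        omega
      have := high_step hfd ⟨i, hi⟩ n
      rw [e, Finset.sum_insert (by simp), ← ih (by omega)]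
      simp only at this
      omega
  have h0 : highPart N 0 n = N n :=
    le_antisymm (highPart_le 0 n) fun v hv => ⟨hv, fun l hl => absurd hl (by omega)⟩
  have hr : highPart N r n = ⊥ := by
    rw [eq_bot_iff]
    exact fun v hv => (Submodule.mem_bot k).2 (funext fun l => hv.2 l l.isLt)
  have := h r le_rfl
  rw [h0, hr, finrank_bot, add_zero] at this
  simpa using this

theorem stable_lowPiece (hs : Stable C N) (i : Fin r) : Stable C (lowPiece N i) := by
  rintro m n c hc _ ⟨v, hv, rfl⟩
  exact ⟨c • v, ⟨hs m n c hc v hv.1, fun l hl => by simp [hv.2 l hl]⟩, rfl⟩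

theorem stable_highPiece (hs : Stable C N) (i : Fin r) : Stable C (highPiece N i) := by
  rintro m n c hc _ ⟨v, hv, rfl⟩
  exact ⟨c • v, ⟨hs m n c hc v hv.1, fun l hl => by simp [hv.2 l hl]⟩, rfl⟩

/-- The low piece pairs with the high piece of the colon family into the ring. -/
theorem highPiece_le_colon (i : Fin r) (n : ℤ) :
    highPiece (colon C N) i n ≤ colon C (lowPiece N i) n := by
  rintro _ ⟨u, hu, rfl⟩ j _ ⟨v, hv, rfl⟩
  have h := hu.1 j v hv.1
  rw [Finset.sum_eq_single i (fun l _ hl => ?_) (by simp)] at h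
  · rw [Finset.univ_unique, Finset.sum_singleton]
    exact h
  · rcases lt_or_gt_of_ne (fun e => hl (Fin.ext e) : l.val ≠ i.val) with h' | h'
    · rw [hu.2 l h', zero_mul]
    · rw [hv.2 l h', mul_zero]

theorem toOne_ne_zero {i : Fin r} {v : Fin r → K} (h : v i ≠ 0) : toOne k i v ≠ 0 :=
  fun e => h (congrFun e 0)

theorem exists_lowPiece_ne_zero (hF : Fam C.η C.ζ N) (i : Fin r) :
    ∃ n, ∃ v ∈ lowPiece N i n, v ≠ 0 := by
  classical
  obtain ⟨q, n, hq, hqn⟩ := exists_denom_vec hF (Pi.single i 1)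
  refine ⟨n, _, ⟨q • Pi.single i 1, ⟨hqn, fun l hl => ?_⟩, rfl⟩, toOne_ne_zero (by simpa using hq)⟩
  have : l ≠ i := fun e => by subst e; omega
  simp [Pi.single_eq_of_ne this]

theorem exists_highPiece_ne_zero (hF : Fam C.η C.ζ N) (i : Fin r) :
    ∃ n, ∃ v ∈ highPiece N i n, v ≠ 0 := by
  classical
  obtain ⟨q, n, hq, hqn⟩ := exists_denom_vec hF (Pi.single i 1)
  refine ⟨n, _, ⟨q • Pi.single i 1, ⟨hqn, fun l hl => ?_⟩, rfl⟩, toOne_ne_zero (by simpa using hq)⟩
  have : l ≠ i := fun e => by subst e; omega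
  simp [Pi.single_eq_of_ne this]

theorem span_fin_one {X : ℤ → Submodule k (Fin 1 → K)} {n : ℤ} {v : Fin 1 → K} (hv : v ∈ X n)
    (h : v ≠ 0) : span K (⋃ m, (X m : Set (Fin 1 → K))) = ⊤ := by
  rw [eq_top_iff]
  rintro u -
  have h0 : v 0 ≠ 0 := fun e => h (funext fun i => by fin_cases i; exact e)
  rw [show u = (u 0 / v 0) • v from funext fun i => by
    fin_cases i; simp [div_mul_cancel₀ _ h0]]
  exact Submodule.smul_mem _ _ (subset_span (Set.mem_iUnion.2 ⟨n, hv⟩))

theorem finrank_restr {m : ℕ} {e : Fin m → Fin r} (he : Function.Injective e) (n : ℤ)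
    (P : Submodule k (Fin r → K))
    (h : ∀ v, v ∈ P ↔ v ∈ N n ∧ ∀ l, (∀ i, e i ≠ l) → v l = 0) :
    finrank k (restr N e n) = finrank k P := by
  have hP : (restr N e n).map (extMap k e) = P := by
    ext v
    rw [h]
    constructor
    · rintro ⟨u, hu, rfl⟩
      exact ⟨hu, fun l hl => extMap_apply_notMem u hl⟩
    · rintro ⟨hv, hl⟩
      have he' : extMap k e (fun i => v (e i)) = v := by
        funext l
        by_cases hl' : ∀ i, e i ≠ l
        · rw [extMap_apply_notMem _ hl', hl l hl']
        · push Not at hl'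
          obtain ⟨i, rfl⟩ := hl'
          rw [extMap_apply he]
      refine ⟨fun i => v (e i), ?_, he'⟩
      show extMap k e _ ∈ N n
      rw [he']
      exact hv
  rw [← hP]
  exact (Submodule.equivMapOfInjective _ (extMap_injective he) _).finrank_eq

theorem exists_quad_lowPart (a : ℤ) (hF : Fam C.η C.ζ N) (hs : Stable C N) {i : ℕ} (hi : i ≤ r) :
    ∃ β γ : ℚ, Quad a (lowPart N i) (((C.d * i : ℕ) : ℚ) / 2) β γ := by
  obtain ⟨β, γ, h⟩ := exists_quad_fam (a := a)
    (fam_restr hF hs (Fin.castLE_injective hi) : Fam C.η C.ζ (restr N (Fin.castLE hi)))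
  refine ⟨β, γ, h.mono fun n hn => ?_⟩
  rw [← hn, finrank_restr (Fin.castLE_injective hi) n (lowPart N i n) fun v => ?_]
  rw [mem_lowPart]
  refine and_congr_right fun _ => forall_congr' fun l => imp_congr_left ?_
  refine ⟨fun hl j hj => by subst hj; simp at hl; omega, fun hl => ?_⟩
  by_contra hlt
  exact hl ⟨l.val, by omega⟩ (Fin.ext rfl)

theorem exists_quad_highPart (a : ℤ) (hF : Fam C.η C.ζ N) (hs : Stable C N) {i : ℕ} (hi : i ≤ r) :
    ∃ β γ : ℚ, Quad a (highPart N i) (((C.d * (r - i) : ℕ) : ℚ) / 2) β γ := by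
  have he : Function.Injective (fun l : Fin (r - i) => (⟨i + l.val, by omega⟩ : Fin r)) :=
    fun x y h => Fin.ext (by simpa using h)
  obtain ⟨β, γ, h⟩ := exists_quad_fam (a := a) (fam_restr hF hs he)
  refine ⟨β, γ, h.mono fun n hn => ?_⟩
  rw [← hn, finrank_restr he n (highPart N i n) fun v => ?_]
  rw [mem_highPart]
  refine and_congr_right fun _ => forall_congr' fun l => imp_congr_left ?_
  refine ⟨fun hl j hj => by subst hj; simp at hl, fun hl => ?_⟩
  by_contra hlt
  exact hl ⟨l.val - i, by omega⟩ (Fin.ext (by show i + (l.val - i) = l.val; omega))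

theorem exists_quad_lowPiece (a : ℤ) (hF : Fam C.η C.ζ N) (hs : Stable C N) (i : Fin r) :
    ∃ β γ : ℚ, Quad a (lowPiece N i) ((C.d : ℚ) / 2) β γ := by
  obtain ⟨β, γ, h⟩ := exists_quad_lowPart a hF hs (i := i.val + 1) (by omega)
  obtain ⟨β', γ', h'⟩ := exists_quad_lowPart a hF hs (i := i.val) (by omega)
  refine ⟨β - β', γ - γ', (h.and h').mono fun n hn => ?_⟩
  have e : (finrank k (lowPiece N i n) : ℚ) =
      finrank k (lowPart N (i.val + 1) n) - finrank k (lowPart N i.val n) := by
    rw [low_step hF.fd i n]; push_cast; ring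
  rw [e, hn.1, hn.2]
  push_cast
  ring

theorem exists_quad_highPiece (a : ℤ) (hF : Fam C.η C.ζ N) (hs : Stable C N) (i : Fin r) :
    ∃ β γ : ℚ, Quad a (highPiece N i) ((C.d : ℚ) / 2) β γ := by
  obtain ⟨β, γ, h⟩ := exists_quad_highPart a hF hs (i := i.val) (by omega)
  obtain ⟨β', γ', h'⟩ := exists_quad_highPart a hF hs (i := i.val + 1) (by omega)
  refine ⟨β - β', γ - γ', (h.and h').mono fun n hn => ?_⟩
  have e : (finrank k (highPiece N i n) : ℚ) =
      finrank k (highPart N i.val n) - finrank k (highPart N (i.val + 1) n) := by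
    rw [high_step hF.fd i n]; push_cast; ring
  have ei : ((r - i.val : ℕ) : ℚ) = ((r - (i.val + 1) : ℕ) : ℚ) + 1 := by
    exact_mod_cast (by omega : r - i.val = (r - (i.val + 1)) + 1)
  rw [e, hn.1, hn.2]
  push_cast [ei]
  ring

end Vale.Agent.P190.Bound
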