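import Vale.Agent.P190.Bound.RR

/-!
The reflexive hull of a Frobenius pull-back multiplies degrees by `p`.
-/

open Filter Module Submodule

namespace Vale.Agent.P190.Bound

open Vale.Agent.P190 Hilb

variable {k K : Type} [Field k] [Field K] [Algebra k K] {C : Cone k K} {r : ℕ}
  {N : ℤ → Submodule k (Fin r → K)} {a : ℤ} {w : K}

/-- The family `n ↦ N (n + b)`. -/
def shift (N : ℤ → Submodule k (Fin r → K)) (b : ℤ) (n : ℤ) : Submodule k (Fin r → K) := N (n + b)

theorem dualFam_shift (b n : ℤ) :
    dualFam C.η C.ζ (shift N b) n = dualFam C.η C.ζ N (n - b) := by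
  ext u
  constructor
  · intro hu j v hv
    have := hu (j - b) v (by show v ∈ N (j - b + b); rwa [sub_add_cancel])
    rwa [show n + (j - b) - 3 = n - b + j - 3 by ring] at this
  · intro hu j v hv
    have := hu (j + b) v hv
    rwa [show n - b + (j + b) - 3 = n + j - 3 by ring] at this

theorem colon_shift (b n : ℤ) : colon C (shift N b) n = colon C N (n - b) := by
  ext u
  constructor
  · intro hu j v hv
    have := hu (j - b) v (by show v ∈ N (j - b + b); rwa [sub_add_cancel])
    rwa [show n + (j - b) = n - b + j by ring] at this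
  · intro hu j v hv
    have := hu (j + b) v hv
    rwa [show n - b + (j + b) = n + j by ring] at this

theorem isMod_shift (hN : C.IsMod N) (b : ℤ) : C.IsMod (shift N b) where
  smul_mem m n c hc v hv := by
    have := hN.smul_mem m (n + b) c hc v hv
    rwa [← add_assoc] at this
  fd n := hN.fd _
  below := by
    obtain ⟨n₀, h⟩ := hN.below
    exact ⟨n₀ - b, fun n hn => h _ (by omega)⟩
  gen := by
    obtain ⟨g, h⟩ := hN.gen
    refine ⟨g - b, fun n hn => ?_⟩
    show N (n + 1 + b) = _
    rw [add_right_comm]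
    exact h _ (by omega)
  span_top := by
    rw [eq_top_iff, ← hN.span_top]
    refine span_mono (Set.iUnion_subset fun n v hv => Set.mem_iUnion.2 ⟨n - b, ?_⟩)
    show v ∈ N (n - b + b)
    rwa [sub_add_cancel]
  reflexive n := by
    rw [show dualFam C.η C.ζ (shift N b) = shift (dualFam C.η C.ζ N) (-b) from
      funext fun m => by rw [dualFam_shift]; rfl, dualFam_shift, hN.reflexive, sub_neg_eq_add]
    rfl

theorem frobFam_shift (p : ℕ) (b n : ℤ) :
    Colength.frobFam C p (shift N b) n = Colength.frobFam C p N (n + p * b) := by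
  refine le_antisymm (Submodule.span_le.2 ?_) (Submodule.span_le.2 ?_)
  · rintro _ ⟨j, e, he, v, hv, rfl⟩
    refine Colength.mem_frobFam (j := j + b) ?_ hv
    rwa [show n + p * b - p * (j + b) = n - p * j by ring]
  · rintro _ ⟨j, e, he, v, hv, rfl⟩
    refine Colength.mem_frobFam (j := j - b) ?_ (by show v ∈ N (j - b + b); rwa [sub_add_cancel])
    rwa [show n - p * (j - b) = n + p * b - p * j by ring]

theorem quad_shift {L : ℤ → Submodule k (Fin r → K)} {α β γ : ℚ} (h : Quad a L α β γ) (b : ℤ) :
    Quad a (shift L b) α (β + 2 * α * b) (α * (b : ℚ) ^ 2 + β * b + γ) :=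
  (eventually_shift h b).mono fun n hn => by
    rw [shift, hn]
    push_cast
    ring

theorem eq_zero_of_mul_bdd {x C₁ : ℚ} (h : ∀ b : ℤ, C₁ ≤ x * b) : x = 0 := by
  by_contra hx
  obtain ⟨m, hm⟩ := exists_nat_gt (-C₁ / |x|)
  rw [div_lt_iff₀ (abs_pos.2 hx)] at hm
  rcases lt_or_gt_of_ne hx with h0 | h0
  · have := h m
    rw [abs_of_neg h0] at hm
    push_cast at this
    nlinarith
  · have := h (-m)
    rw [abs_of_pos h0] at hm
    push_cast at this
    nlinarith

/-- The degree is multiplied by `p`, and the constant term gains a factor `p²`. -/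
theorem hull_quad [IsAlgClosed k] {p : ℕ} [Fact p.Prime] [CharP k p] (hS : C.Smooth)
    (hω : OmegaData C a w) (hpair : PairProp C) (hN : C.IsMod N) {β γ c₀ : ℚ}
    (hq : Quad a N (((C.d * r : ℕ) : ℚ) / 2) β γ)
    (hqR : Quad a (one1 C.R) ((C.d : ℚ) / 2) 0 c₀) :
    C.IsMod (colon C (colon C (Colength.frobFam C p N))) ∧
      ∃ γ' : ℚ, Quad a (colon C (colon C (Colength.frobFam C p N)))
        (((C.d * r : ℕ) : ℚ) / 2) ((p : ℚ) * β) γ' ∧
        r * c₀ + (p : ℚ) ^ 2 * (γ - r * c₀) ≤ γ' := by
  obtain ⟨hG, β', γ', hq', hle⟩ := rr_bound hS hω hpair hN hq hqR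
  refine ⟨hG, γ', ?_, hle⟩
  have key : ∀ b : ℤ, r * c₀ + (p : ℚ) ^ 2 * (γ - r * c₀) - γ' ≤
      ((p : ℚ) * (β' - p * β)) * b := by
    intro b
    obtain ⟨-, β'', γ'', hq'', hle'⟩ :=
      rr_bound (p := p) hS hω hpair (isMod_shift hN b) (quad_shift hq b) hqR
    have e : colon C (colon C (Colength.frobFam C p (shift N b))) =
        shift (colon C (colon C (Colength.frobFam C p N))) ((p : ℤ) * b) := by
      funext n
      rw [show Colength.frobFam C p (shift N b) = shift (Colength.frobFam C p N) ((p : ℤ) * b) from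
        funext (frobFam_shift p b),
        show colon C (shift (Colength.frobFam C p N) ((p : ℤ) * b)) =
          shift (colon C (Colength.frobFam C p N)) (-((p : ℤ) * b)) from
        funext fun m => by rw [colon_shift]; rfl, colon_shift, sub_neg_eq_add]
      rfl
    rw [e] at hq''
    have := (quad_unique hq'' (quad_shift hq' ((p : ℤ) * b))).2
    push_cast at this hle' ⊢
    subst this
    linarith [hle']
  have h0 := eq_zero_of_mul_bdd key
  have hp : (p : ℚ) ≠ 0 := Nat.cast_ne_zero.2 (Fact.out : p.Prime).ne_zero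
  have : β' = p * β := sub_eq_zero.1 ((mul_eq_zero.1 h0).resolve_left hp)
  rwa [← this]

end Vale.Agent.P190.Bound
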