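import Vale.Agent.P190.Bound.Final
import Vale.Agent.P190.Bound.Slopes.Main

/-!
P190: the bound module, assembled.
-/

open Filter Module Submodule

namespace Vale.Agent.P190

open Vale.Agent.P190.Bound

theorem Bound.slopeModule : Bound.SlopeModule := by
  intro d g r _
  refine ⟨r * Cone.multDeg d g, 0, fun p hp _ k K _ _ _ _ _ C hd hg hS a w hω N hN hW β γ hq => ?_⟩
  have : Fact p.Prime := ⟨hp⟩
  obtain ⟨h1, h2⟩ := Slopes.slope_bounds (p := p) hS hω (pairProp hS) hN hW hq
  have e : colon C (colon C (colon C (Colength.frobFam C p N))) =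
      colon C (Colength.frobFam C p N) := funext fun n => colon_colon_colon n
  subst hd hg
  rw [e] at h2
  constructor
  · intro V hV β' γ' hV'
    push_cast at h1 hV' ⊢
    exact h1 V hV β' γ' hV'
  · intro V hV β' γ' hV'
    push_cast [neg_div] at h2 hV' ⊢
    exact h2 V hV β' γ' hV'

/-- The bound module. -/
theorem boundModule : BoundModule := Bound.boundModule_of Bound.slopeModule

end Vale.Agent.P190
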