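import Vale.Agent.P190.Defs
import Vale.Agent.P190.Hilb.Free
import Vale.Agent.P190.Hilb.Poly

/-!
P190: the minimal polynomial over `k(η, ζ)` of an element of degree `m` has its coefficient of index
`i` in the piece of degree `(n - i) m` of `k[x, y, z]`.
-/

namespace Vale.Agent.P190.Bound

open Submodule Hilb

variable {k K : Type} [Field k] [Field K] [Algebra k K]

section

variable {η ζ : K}

theorem one_mem_polySpace {m : ℤ} (h : 0 ≤ m) : (1 : K) ∈ polySpace (k := k) η ζ m := by
  simpa using mem_polySpace_of (k := k) (η := η) (ζ := ζ) (m := m) (a := 0) (b := 0) (by simpa)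

theorem polySpace_le_ratField {m : ℤ} {v : K} (hv : v ∈ polySpace (k := k) η ζ m) :
    v ∈ ratField k η ζ := by
  induction hv using Submodule.span_induction with
  | mem x hx =>
    obtain ⟨a, b, -, rfl⟩ := hx
    exact mul_mem (pow_mem (IntermediateField.subset_adjoin k _ (by simp)) a)
      (pow_mem (IntermediateField.subset_adjoin k _ (by simp)) b)
  | zero => exact zero_mem _
  | add x y _ _ hx hy => exact add_mem hx hy
  | smul t x _ hx =>
    rw [Algebra.smul_def]
    exact mul_mem (IntermediateField.algebraMap_mem _ t) hx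

/-- A common denominator of finitely many elements of `k(η, ζ)`. -/
theorem exists_common_denom (s : Finset ℕ) (c : ℕ → K) (hc : ∀ i ∈ s, c i ∈ ratField k η ζ) :
    ∃ (E : ℕ) (Q : K), Q ≠ 0 ∧ Q ∈ polySpace (k := k) η ζ E ∧
      ∀ i ∈ s, Q * c i ∈ polySpace (k := k) η ζ E := by
  classical
  induction s using Finset.induction with
  | empty => exact ⟨0, 1, one_ne_zero, one_mem_polySpace le_rfl, by simp⟩
  | @insert j s hj ih =>
    obtain ⟨E, Q, hQ0, hQ, hs⟩ := ih fun i hi => hc i (Finset.mem_insert_of_mem hi)
    obtain ⟨e, q, hq, hq0, hqc⟩ := exists_denom (hc j (Finset.mem_insert_self j s))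
    refine ⟨E + e, Q * q, mul_ne_zero hQ0 hq0, ?_, fun i hi => ?_⟩
    · push_cast
      exact mul_mem_polySpace hQ hq
    · rcases Finset.mem_insert.1 hi with rfl | hi
      · push_cast
        rw [mul_assoc]
        exact mul_mem_polySpace hQ hqc
      · push_cast
        rw [mul_right_comm]
        exact mul_mem_polySpace (hs i hi) hq

theorem rees_injective (hind : AlgebraicIndependent k ![η, ζ]) :
    Function.Injective (rees (k := k) η ζ) := by
  classical
  rw [injective_iff_map_eq_zero]
  intro p hp
  ext d
  simp only [MvPolynomial.coeff_zero]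
  by_contra hd
  set e := d 0 + d 1 + d 2 with he
  have hsum : ∑ i ∈ p.support.filter (fun i => i 0 + i 1 + i 2 = e),
      p.coeff i • (η ^ i 1 * ζ ^ i 2) = 0 := by
    have h : (rees (k := k) η ζ p).coeff e = 0 := by simp [hp]
    rw [p.as_sum, map_sum, Polynomial.finsetSum_coeff] at h
    rw [Finset.sum_filter]
    exact (Finset.sum_congr rfl fun i _ => by
      rw [rees_monomial, Polynomial.coeff_monomial]).trans h
  let f : (Fin 3 →₀ ℕ) → (Fin 2 →₀ ℕ) :=
    fun i => Finsupp.single 0 (i 1) + Finsupp.single 1 (i 2)
  set q : MvPolynomial (Fin 2) k :=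
    ∑ i ∈ p.support.filter (fun i => i 0 + i 1 + i 2 = e), MvPolynomial.monomial (f i) (p.coeff i)
    with hq
  have hq0 : q = 0 := by
    refine algebraicIndependent_iff_injective_aeval.1 hind ?_
    rw [map_zero, ← hsum, hq, map_sum]
    refine Finset.sum_congr rfl fun i _ => ?_
    rw [show MvPolynomial.aeval ![η, ζ] = ev (k := k) η ζ from rfl, ev_monomial]
    simp [f]
  have hmem : d ∈ p.support.filter (fun i => i 0 + i 1 + i 2 = e) :=
    Finset.mem_filter.2 ⟨MvPolynomial.mem_support_iff.2 hd, rfl⟩
  have hc : q.coeff (f d) = p.coeff d := by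
    rw [hq, MvPolynomial.coeff_sum, Finset.sum_eq_single_of_mem d hmem]
    · simp
    · intro i hi hne
      rw [MvPolynomial.coeff_monomial, if_neg]
      intro heq
      apply hne
      have h1 := DFunLike.congr_fun heq 0
      have h2 := DFunLike.congr_fun heq 1
      simp [f] at h1 h2
      have h0 := (Finset.mem_filter.1 hi).2
      ext j
      fin_cases j <;> simp <;> omega
  rw [hq0, MvPolynomial.coeff_zero] at hc
  exact hd hc.symm

end

namespace Ring3

variable (C : Ring3 k K)

theorem mono_succ (n : ℤ) : C.R n ≤ C.R (n + 1) := fun a ha => by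
  simpa using C.mul_mem n 1 a ha 1 C.one_mem

theorem pow_mul_mem {a b e : ℕ} (h : a + b ≤ e) {m : ℤ} {v : K} (hv : v ∈ C.R m) :
    C.η ^ a * C.ζ ^ b * v ∈ C.R (m + e) := by
  induction e generalizing a b with
  | zero =>
    obtain ⟨rfl, rfl⟩ : a = 0 ∧ b = 0 := by omega
    simpa using hv
  | succ e ih =>
    rw [Nat.cast_succ, ← add_assoc]
    rcases Nat.eq_or_lt_of_le h with h' | h'
    · rcases a with _ | a
      · rcases b with _ | b
        · omega
        · convert C.mul_mem _ 1 _ (ih (a := 0) (b := b) (by omega)) _ C.ζ_mem using 1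
          ring
      · convert C.mul_mem _ 1 _ (ih (a := a) (b := b) (by omega)) _ C.η_mem using 1
        ring
    · exact mono_succ C _ (ih (by omega))

theorem poly_mul_mem {e : ℕ} {c : K} (hc : c ∈ polySpace (k := k) C.η C.ζ e) {m : ℤ} {v : K}
    (hv : v ∈ C.R m) : c * v ∈ C.R (m + e) := by
  induction hc using Submodule.span_induction with
  | mem x hx =>
    obtain ⟨a, b, hab, rfl⟩ := hx
    exact pow_mul_mem C (by exact_mod_cast hab) hv
  | zero => simp
  | add x y _ _ hx hy => rw [add_mul]; exact add_mem hx hy
  | smul t x _ hx => rw [smul_mul_assoc]; exact Submodule.smul_mem _ _ hx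

/-- The graded ring inside `K[T]`. -/
noncomputable def graded : Subalgebra k (Polynomial K) where
  carrier := {f | ∀ n : ℕ, f.coeff n ∈ C.R n}
  mul_mem' {f g} hf hg n := by
    rw [Polynomial.coeff_mul]
    refine sum_mem fun p hp => ?_
    rw [Finset.HasAntidiagonal.mem_antidiagonal] at hp
    have h := C.mul_mem _ _ _ (hf p.1) _ (hg p.2)
    rwa [← Nat.cast_add, hp] at h
  one_mem' n := by
    rcases n with _ | n
    · simp [C.R_zero]
    · simp [Polynomial.coeff_one]
  add_mem' {f g} hf hg n := by
    rw [Polynomial.coeff_add]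
    exact add_mem (hf n) (hg n)
  zero_mem' n := by simp
  algebraMap_mem' t n := by
    rcases n with _ | n
    · simp [C.R_zero, Submodule.mem_span_singleton, Algebra.smul_def, Polynomial.algebraMap_apply]
    · simp [Polynomial.algebraMap_apply]

theorem monomial_mem {n : ℕ} {v : K} (hv : v ∈ C.R n) : Polynomial.monomial n v ∈ graded C := by
  intro j
  rw [Polynomial.coeff_monomial]
  split_ifs with h
  · exact h ▸ hv
  · exact zero_mem _

/-- An element of degree `m`, placed in degree `m`, is integral over `k[x, y, z]`. -/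
theorem isIntegral_monomial {m : ℕ} {b : K} (hb : b ∈ C.R m) :
    (rees (k := k) C.η C.ζ).toRingHom.IsIntegralElem (Polynomial.monomial m b) := by
  classical
  let _ : Algebra (MvPolynomial (Fin 3) k) (Polynomial K) :=
    (rees (k := k) C.η C.ζ).toRingHom.toAlgebra
  have halg : ∀ p, algebraMap (MvPolynomial (Fin 3) k) (Polynomial K) p = rees C.η C.ζ p :=
    fun _ => rfl
  have hmul : ∀ (p : MvPolynomial (Fin 3) k) (f : Polynomial K), f ∈ graded C →
      rees C.η C.ζ p * f ∈ graded C := by
    intro p f hf n
    rw [Polynomial.coeff_mul]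
    refine sum_mem fun q hq => ?_
    rw [Finset.HasAntidiagonal.mem_antidiagonal] at hq
    have h := poly_mul_mem C (coeff_rees_mem p q.1) (hf q.2)
    rwa [add_comm, ← Nat.cast_add, hq] at h
  let S : Subalgebra (MvPolynomial (Fin 3) k) (Polynomial K) :=
    { (graded C).toSubsemiring with
      algebraMap_mem' := fun p => by
        simpa [halg] using hmul p 1 (one_mem _) }
  have := C.fd
  let B : Finset (Polynomial K) := (Finset.range (C.g + 1)).biUnion fun j =>
    Finset.univ.image fun i => Polynomial.monomial j ((Module.finBasis k (C.R j) i : C.R j) : K)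
  have hHS : S.toSubmodule.FG := by
    refine ⟨B, le_antisymm (Submodule.span_le.2 ?_) ?_⟩
    · intro f hf
      simp only [B, Finset.coe_biUnion, Set.mem_iUnion, Finset.coe_image, Set.mem_image] at hf
      obtain ⟨j, -, i, -, rfl⟩ := hf
      exact monomial_mem C (Subtype.prop _)
    · set W := Submodule.span (MvPolynomial (Fin 3) k) (B : Set (Polynomial K)) with hW
      have low : ∀ j ≤ C.g, ∀ v ∈ C.R (j : ℕ), Polynomial.monomial j v ∈ W := by
        intro j hj v hv
        rw [show v = ((⟨v, hv⟩ : C.R (j : ℕ)) : K) from rfl,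
          ← (Module.finBasis k (C.R (j : ℕ))).sum_repr ⟨v, hv⟩, Submodule.coe_sum, map_sum]
        refine sum_mem fun i _ => ?_
        rw [Submodule.coe_smul, Algebra.smul_def, ← Polynomial.C_mul_monomial]
        have hC : Polynomial.C (algebraMap k K ((Module.finBasis k (C.R (j : ℕ))).repr ⟨v, hv⟩ i)) =
            algebraMap (MvPolynomial (Fin 3) k) (Polynomial K)
              (MvPolynomial.C ((Module.finBasis k (C.R (j : ℕ))).repr ⟨v, hv⟩ i)) := by
          rw [halg, rees, MvPolynomial.aeval_C, Polynomial.algebraMap_apply]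
        rw [hC, ← Algebra.smul_def]
        refine W.smul_mem _ (Submodule.subset_span ?_)
        simp only [B, Finset.coe_biUnion, Set.mem_iUnion, Finset.coe_image, Set.mem_image]
        exact ⟨j, Finset.mem_coe.2 (Finset.mem_range.2 (by omega)), i, by simp, rfl⟩
      have key : ∀ n : ℕ, ∀ v ∈ C.R n, Polynomial.monomial n v ∈ W := by
        intro n
        induction n with
        | zero =>
          intro v hv
          exact low 0 (Nat.zero_le _) v hv
        | succ n ih =>
          intro v hv
          by_cases hn : n + 1 ≤ C.g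
          · exact low _ hn v hv
          · rw [Nat.cast_succ, C.gen n (by omega)] at hv
            obtain ⟨_, h12, _, ⟨c, hc, rfl⟩, rfl⟩ := Submodule.mem_sup.1 hv
            obtain ⟨a, ha, _, ⟨b', hb', rfl⟩, rfl⟩ := Submodule.mem_sup.1 h12
            have e0 : Polynomial.monomial (n + 1) a =
                (MvPolynomial.X (0 : Fin 3) : MvPolynomial (Fin 3) k) • Polynomial.monomial n a := by
              rw [Algebra.smul_def, halg, rees, MvPolynomial.aeval_X]
              simp [Polynomial.X_mul_monomial]
            have e1 : Polynomial.monomial (n + 1) (C.η * b') =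
                (MvPolynomial.X (1 : Fin 3) : MvPolynomial (Fin 3) k) •
                  Polynomial.monomial n b' := by
              rw [Algebra.smul_def, halg, rees, MvPolynomial.aeval_X]
              simp [mul_assoc, Polynomial.X_mul_monomial, Polynomial.C_mul_monomial]
            have e2 : Polynomial.monomial (n + 1) (C.ζ * c) =
                (MvPolynomial.X (2 : Fin 3) : MvPolynomial (Fin 3) k) •
                  Polynomial.monomial n c := by
              rw [Algebra.smul_def, halg, rees, MvPolynomial.aeval_X]
              simp [mul_assoc, Polynomial.X_mul_monomial, Polynomial.C_mul_monomial]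
            simp only [LinearMap.mulLeft_apply, map_add]
            rw [e0, e1, e2]
            exact add_mem (add_mem (W.smul_mem _ (ih a ha)) (W.smul_mem _ (ih b' hb')))
              (W.smul_mem _ (ih c hc))
      intro f hf
      rw [← f.sum_monomial_eq]
      exact sum_mem fun n _ => key n _ (hf n)
  exact IsIntegral.of_mem_of_fg S hHS _ (monomial_mem C hb)

/-- The coefficients of the minimal polynomial of an element of degree `m`. -/
theorem minpoly_coeff_mem [FiniteDimensional (ratField k C.η C.ζ) K] {m : ℕ} {b : K}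
    (hb : b ∈ C.R m) (i : ℕ) :
    ((minpoly (ratField k C.η C.ζ) b).coeff i : K) ∈
      polySpace (k := k) C.η C.ζ
        (((minpoly (ratField k C.η C.ζ) b).natDegree - i) * m : ℕ) := by
  classical
  let _ : Algebra (MvPolynomial (Fin 3) k) (Polynomial K) :=
    (rees (k := k) C.η C.ζ).toRingHom.toAlgebra
  have hinj : Function.Injective (algebraMap (MvPolynomial (Fin 3) k) (Polynomial K)) :=
    rees_injective C.indep
  have : FaithfulSMul (MvPolynomial (Fin 3) k) (Polynomial K) :=
    (faithfulSMul_iff_algebraMap_injective _ _).2 hinj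
  set F := ratField k C.η C.ζ
  set mb := minpoly F b with hmb
  set n := mb.natDegree with hn
  have hbi : IsIntegral F b := IsIntegral.of_finite F b
  set s := Polynomial.monomial m b with hs
  have hsi : IsIntegral (MvPolynomial (Fin 3) k) s := isIntegral_monomial C hb
  obtain ⟨E, Q, hQ0, hQ, hQc⟩ := exists_common_denom (k := k) (η := C.η) (ζ := C.ζ)
    (Finset.range (n + 1)) (fun j => ((mb.coeff j : F) : K)) fun j _ => (mb.coeff j).2
  have hex : ∀ j : ℕ, ∃ π : MvPolynomial (Fin 3) k, j ≤ n →
      rees C.η C.ζ π = Polynomial.monomial (E + (n - j) * m) (Q * ((mb.coeff j : F) : K)) := by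
    intro j
    by_cases hj : j ≤ n
    · obtain ⟨π, hπ⟩ := exists_rees (polySpace_mono (Int.ofNat_le.2 (Nat.le_add_right _ _))
        (hQc j (Finset.mem_range.2 (by omega))) :
          Q * ((mb.coeff j : F) : K) ∈ polySpace (k := k) C.η C.ζ ((E + (n - j) * m : ℕ) : ℤ))
      exact ⟨π, fun _ => hπ⟩
    · exact ⟨0, fun h => absurd h hj⟩
  choose π hπ using hex
  set P := ∑ j ∈ Finset.range (n + 1), Polynomial.monomial j (π j) with hP
  have hPs : Polynomial.aeval s P = 0 := by
    have h0 : ∑ j ∈ Finset.range (n + 1), ((mb.coeff j : F) : K) * b ^ j = 0 := by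
      have h := minpoly.aeval F b
      rw [Polynomial.aeval_eq_sum_range, ← hmb, ← hn] at h
      simpa [IntermediateField.smul_def] using h
    rw [hP, map_sum]
    calc ∑ j ∈ Finset.range (n + 1), Polynomial.aeval s (Polynomial.monomial j (π j))
        = ∑ j ∈ Finset.range (n + 1),
            Polynomial.monomial (E + n * m) (Q * (((mb.coeff j : F) : K) * b ^ j)) := by
          refine Finset.sum_congr rfl fun j hj => ?_
          have hj' : j ≤ n := Nat.lt_succ_iff.1 (Finset.mem_range.1 hj)
          rw [Polynomial.aeval_monomial, RingHom.algebraMap_toAlgebra, AlgHom.toRingHom_eq_coe,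
            RingHom.coe_coe, hπ j hj', hs, Polynomial.monomial_pow, Polynomial.monomial_mul_monomial,
            mul_assoc]
          congr 2
          rw [add_assoc, mul_comm m j, ← Nat.add_mul, Nat.sub_add_cancel hj']
      _ = 0 := by rw [← map_sum, ← Finset.mul_sum, h0, mul_zero, map_zero]
  have hPc : ∀ j ≤ n, P.coeff j = π j := by
    intro j hj
    rw [hP, Polynomial.finsetSum_coeff, Finset.sum_eq_single_of_mem j (Finset.mem_range.2 (by omega))]
    · simp
    · intro l _ hl
      simp [Polynomial.coeff_monomial, hl]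
  have hlead : mb.coeff n = 1 := (minpoly.monic hbi).coeff_natDegree
  have hP0 : P ≠ 0 := by
    intro h
    have h1 := hπ n le_rfl
    rw [← hPc n le_rfl, h, Polynomial.coeff_zero, map_zero, hlead] at h1
    have := congrArg (fun f => Polynomial.coeff f (E + (n - n) * m)) h1
    simp at this
    exact hQ0 this.symm
  set q := minpoly (MvPolynomial (Fin 3) k) s with hq
  have hdeg : q.natDegree ≤ n := by
    refine (Polynomial.natDegree_le_of_dvd (minpoly.isIntegrallyClosed_dvd hsi hPs) hP0).trans ?_
    exact Polynomial.natDegree_sum_le_of_forall_le _ _ fun j hj =>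
      (Polynomial.natDegree_monomial_le _).trans (Nat.lt_succ_iff.1 (Finset.mem_range.1 hj))
  set N := q.natDegree with hN
  set c : ℕ → K := fun j => (rees C.η C.ζ (q.coeff j)).coeff ((N - j) * m) with hc
  have hcmem : ∀ j, c j ∈ polySpace (k := k) C.η C.ζ (((N - j) * m : ℕ) : ℤ) :=
    fun j => coeff_rees_mem _ _
  set f : Polynomial F := ∑ j ∈ Finset.range (N + 1),
    Polynomial.monomial j ⟨c j, polySpace_le_ratField (hcmem j)⟩ with hf
  have hfc : ∀ j ≤ N, ((f.coeff j : F) : K) = c j := by
    intro j hj
    rw [hf, Polynomial.finsetSum_coeff, Finset.sum_eq_single_of_mem j (Finset.mem_range.2 (by omega))]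
    · simp
    · intro l _ hl
      simp [Polynomial.coeff_monomial, hl]
  have hcN : c N = 1 := by
    have h1 : q.coeff N = 1 := (minpoly.monic hsi).coeff_natDegree
    simp [hc, h1]
  have hfdeg : f.natDegree ≤ N :=
    Polynomial.natDegree_sum_le_of_forall_le _ _ fun j hj =>
      (Polynomial.natDegree_monomial_le _).trans (Nat.lt_succ_iff.1 (Finset.mem_range.1 hj))
  have hfm : f.Monic :=
    Polynomial.monic_of_natDegree_le_of_coeff_eq_one N hfdeg
      (Subtype.ext (by rw [hfc N le_rfl, hcN]; rfl))
  have hfb : Polynomial.aeval b f = 0 := by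
    have h := minpoly.aeval (MvPolynomial (Fin 3) k) s
    rw [← hq, Polynomial.aeval_eq_sum_range, ← hN] at h
    have h' := congrArg (fun g => Polynomial.coeff g (N * m)) h
    simp only [Polynomial.finsetSum_coeff, Polynomial.coeff_zero] at h'
    rw [hf, map_sum, ← h']
    refine Finset.sum_congr rfl fun j hj => ?_
    have hj' : j ≤ N := Nat.lt_succ_iff.1 (Finset.mem_range.1 hj)
    rw [Polynomial.aeval_monomial, Algebra.smul_def, RingHom.algebraMap_toAlgebra,
      AlgHom.toRingHom_eq_coe, RingHom.coe_coe, hs, Polynomial.monomial_pow,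
      show N * m = (N - j) * m + m * j by
        rw [mul_comm m j, ← Nat.add_mul, Nat.sub_add_cancel hj'],
      Polynomial.coeff_mul_monomial]
    rfl
  have hfdvd : mb ∣ f := minpoly.dvd F b hfb
  have heq : f = mb :=
    Polynomial.eq_of_monic_of_dvd_of_natDegree_le (minpoly.monic hbi) hfm hfdvd (hfdeg.trans hdeg)
  have hnN : n = N := le_antisymm (by rw [hn, ← heq]; exact hfdeg) hdeg
  by_cases hi : i ≤ N
  · rw [← heq, hfc i hi]
    rw [hnN] at *
    exact hcmem i
  · rw [show mb.coeff i = 0 from Polynomial.coeff_eq_zero_of_natDegree_lt (by omega)]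
    exact zero_mem _

end Ring3

end Vale.Agent.P190.Bound
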