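import Vale.Agent.P190.Bound.Flag
import Vale.Agent.P190.Bound.Colength.Main

/-!
The Riemann-Roch lower bound for the reflexive hull of a Frobenius pull-back.
-/

open Filter Module Submodule

namespace Vale.Agent.P190.Bound

open Vale.Agent.P190 Hilb

variable {k K : Type} [Field k] [Field K] [Algebra k K] {C : Cone k K} {r : ℕ}
  {N : ℤ → Submodule k (Fin r → K)} {a : ℤ} {w : K}

/-- A pair of mutually dual rank-one families has two sections without common zero curve. -/
def PairProp (C : Cone k K) : Prop :=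
  ∀ J J' : ℤ → Submodule k K,
    (∀ n c, c ∈ J n ↔ ∀ m, ∀ c' ∈ J' m, c * c' ∈ C.R (n + m)) →
    (∀ n c, c ∈ J' n ↔ ∀ m, ∀ c' ∈ J m, c * c' ∈ C.R (n + m)) →
    (∀ X ∈ ({J, J'} : Set (ℤ → Submodule k K)), (∃ n, ∃ c ∈ X n, c ≠ 0) ∧
      (∀ n, FiniteDimensional k (X n)) ∧ (∃ n₀, ∀ n < n₀, X n = ⊥) ∧
      ∃ b, ∀ n ≥ b, X (n + 1) = X n ⊔ (X n).map (LinearMap.mulLeft k C.η)
        ⊔ (X n).map (LinearMap.mulLeft k C.ζ)) →
    ∃ (j : ℕ) (σ τ : K), σ ∈ J' j ∧ τ ∈ J j ∧ σ ≠ 0 ∧ τ ≠ 0 ∧
      ∀ n h, h * σ ∈ J' (n + j) → h * τ ∈ J (n + j) → h ∈ C.R n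

theorem quad_le_quad {α β γ β' γ' : ℚ} (a : ℤ)
    (h : ∀ᶠ n : ℤ in atTop, α * ((n : ℚ) - (a : ℚ) / 2) ^ 2 + β * ((n : ℚ) - (a : ℚ) / 2) + γ ≤
      α * ((n : ℚ) - (a : ℚ) / 2) ^ 2 + β' * ((n : ℚ) - (a : ℚ) / 2) + γ') :
    β ≤ β' ∧ (β = β' → γ ≤ γ') := by
  refine ⟨lin_le (b := γ - β * (a : ℚ) / 2) (b' := γ' - β' * (a : ℚ) / 2)
    (h.mono fun n hn => by linarith), fun e => ?_⟩
  obtain ⟨n, hn⟩ := h.exists
  subst e
  linarith

/-- A contained family with the same linear term has constant colength. -/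
theorem exists_gap {W : Type} [AddCommGroup W] [Module k W] {A B : ℤ → Submodule k W}
    {α β γ γ' : ℚ} (hfd : ∀ n, FiniteDimensional k (B n)) (hle : ∀ n, A n ≤ B n)
    (hA : Quad a A α β γ) (hB : Quad a B α β γ') :
    ∃ l : ℕ, γ' = γ + l ∧ ∀ᶠ n : ℤ in atTop, finrank k (B n) = finrank k (A n) + l := by
  obtain ⟨n₀, hn₀⟩ := eventually_atTop.1 (hA.and hB)
  have := hfd n₀
  have hl := Submodule.finrank_mono (hle n₀)
  refine ⟨finrank k (B n₀) - finrank k (A n₀), ?_, eventually_atTop.2 ⟨n₀, fun n hn => ?_⟩⟩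
  · rw [Nat.cast_sub hl, (hn₀ n₀ le_rfl).1, (hn₀ n₀ le_rfl).2]
    ring
  · have h1 := hn₀ n hn
    have h2 := hn₀ n₀ le_rfl
    have : (finrank k (B n) : ℚ) + finrank k (A n₀) = finrank k (A n) + finrank k (B n₀) := by
      rw [h1.1, h1.2, h2.1, h2.2]; ring
    have : finrank k (B n) + finrank k (A n₀) = finrank k (A n) + finrank k (B n₀) := by
      exact_mod_cast this
    omega

theorem eventually_shift {P : ℤ → Prop} (h : ∀ᶠ n : ℤ in atTop, P n) (b : ℤ) :
    ∀ᶠ n : ℤ in atTop, P (n + b) := by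
  obtain ⟨n₀, hn₀⟩ := eventually_atTop.1 h
  exact eventually_atTop.2 ⟨n₀ - b, fun n hn => hn₀ _ (by omega)⟩

theorem frobVec_mul (p : ℕ) (c : K) (v : Fin r → K) :
    Colength.frobVec p (c • v) = c ^ p • Colength.frobVec p v :=
  Colength.frobVec_smul p c v

theorem finrank_map_smulE {c : K} (hc : c ≠ 0) (P : Submodule k (Fin r → K)) :
    finrank k (P.map (smulE k c)) = finrank k P :=
  (Submodule.equivMapOfInjective _ (smulE_injective hc) _).finrank_eq.symm

theorem le_frobFam_one (p : ℕ) (n : ℤ) :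
    one1 C.R n ≤ Colength.frobFam C p (one1 C.R) n := fun v hv => by
  have h0 : (fun _ => (1 : K)) ∈ one1 C.R 0 := one_mem_R0 (C := C)
  have := Colength.mem_frobFam (C := C) (p := p) (n := n) (j := 0) (a := v 0)
    (by rw [mul_zero, sub_zero]; exact hv) h0
  convert this using 1
  funext i
  fin_cases i
  simp [Colength.frobVec]

/-- The Koszul step: a mutually dual pair of rank-one families and its Frobenius pull-backs. -/
theorem rankOne_step [IsAlgClosed k] {p : ℕ} [Fact p.Prime] [CharP k p] (hS : C.Smooth)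
    (hpair : PairProp C) {J J' : ℤ → Submodule k (Fin 1 → K)} (hJ : C.IsMod J) (hJ' : C.IsMod J')
    (hJJ' : ∀ n, J n = colon C J' n) (hJ'J : ∀ n, J' n = colon C J n)
    {b c c₀ : ℚ} (hq : Quad a J ((C.d : ℚ) / 2) b c) (hq' : Quad a J' ((C.d : ℚ) / 2) (-b) c)
    (hqR : Quad a (one1 C.R) ((C.d : ℚ) / 2) 0 c₀) :
    ∀ᶠ n : ℤ in atTop, (C.d : ℚ) * ((n : ℚ) - (a : ℚ) / 2) ^ 2 + 2 * c₀
        + (p : ℚ) ^ 2 * (2 * c - 2 * c₀) ≤
      (finrank k (Colength.frobFam C p J n) : ℚ) + finrank k (Colength.frobFam C p J' n) := by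
  classical
  have hF := fam_of_isMod hJ
  have hF' := fam_of_isMod hJ'
  have hR1 := isMod_one1 hS.1
  have : CharP K p := charP_of_injective_algebraMap (algebraMap k K).injective p
  let sect : (ℤ → Submodule k (Fin 1 → K)) → ℤ → Submodule k K :=
    fun X n => (X n).map (LinearMap.proj 0)
  have hsect : ∀ (X : ℤ → Submodule k (Fin 1 → K)) n c, c ∈ sect X n ↔ (fun _ => c) ∈ X n := by
    intro X n c
    constructor
    · rintro ⟨v, hv, rfl⟩
      have e : (fun _ : Fin 1 => v 0) = v := funext fun i => by fin_cases i; rfl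
      show (fun _ : Fin 1 => v 0) ∈ X n
      rw [e]
      exact hv
    · exact fun h => ⟨_, h, rfl⟩
  have hiff : ∀ X Y : ℤ → Submodule k (Fin 1 → K), (∀ n, X n = colon C Y n) →
      ∀ n c, c ∈ sect X n ↔ ∀ m, ∀ c' ∈ sect Y m, c * c' ∈ C.R (n + m) := by
    intro X Y hXY n c
    rw [hsect, hXY]
    constructor
    · intro h m c' hc'
      simpa using h m _ ((hsect Y m c').1 hc')
    · intro h m v hv
      simpa using h m (v 0) ⟨v, hv, rfl⟩
  have hprops : ∀ X ∈ ({sect J, sect J'} : Set (ℤ → Submodule k K)), (∃ n, ∃ c ∈ X n, c ≠ 0) ∧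
      (∀ n, FiniteDimensional k (X n)) ∧ (∃ n₀, ∀ n < n₀, X n = ⊥) ∧
      ∃ b, ∀ n ≥ b, X (n + 1) = X n ⊔ (X n).map (LinearMap.mulLeft k C.η)
        ⊔ (X n).map (LinearMap.mulLeft k C.ζ) := by
    have key : ∀ Y : ℤ → Submodule k (Fin 1 → K), C.IsMod Y → (∃ n, ∃ c ∈ sect Y n, c ≠ 0) ∧
        (∀ n, FiniteDimensional k (sect Y n)) ∧ (∃ n₀, ∀ n < n₀, sect Y n = ⊥) ∧
        ∃ b, ∀ n ≥ b, sect Y (n + 1) = sect Y n ⊔ (sect Y n).map (LinearMap.mulLeft k C.η)
          ⊔ (sect Y n).map (LinearMap.mulLeft k C.ζ) := by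
      intro Y hY
      refine ⟨?_, fun n => ?_, ?_, ?_⟩
      · obtain ⟨q, n, hq, hqn⟩ := exists_denom_vec (fam_of_isMod hY) (fun _ => 1)
        exact ⟨n, q, (hsect Y n q).2 (by simpa [Pi.smul_def] using hqn), hq⟩
      · have := hY.fd n
        infer_instance
      · obtain ⟨n₀, h⟩ := hY.below
        exact ⟨n₀, fun n hn => by simp only [sect, h n hn, Submodule.map_bot]⟩
      · obtain ⟨b₀, h⟩ := hY.gen
        refine ⟨b₀, fun n hn => ?_⟩
        simp only [sect, h n hn, Submodule.map_sup, ← Submodule.map_comp]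
        rfl
    rintro X (rfl | rfl)
    exacts [key J hJ, key J' hJ']
  obtain ⟨j, σ, τ, hσ, hτ, hσ0, hτ0, hco⟩ :=
    hpair (sect J) (sect J') (hiff J J' hJJ') (hiff J' J hJ'J) hprops
  have hσJ : ∀ n, ∀ v ∈ J n, σ * v 0 ∈ C.R ((j : ℤ) + n) := fun n v hv =>
    (hiff J' J hJ'J j σ).1 hσ n _ ⟨v, hv, rfl⟩
  have hτJ : ∀ n, ∀ v ∈ J' n, τ * v 0 ∈ C.R ((j : ℤ) + n) := fun n v hv =>
    (hiff J J' hJJ' j τ).1 hτ n _ ⟨v, hv, rfl⟩
  -- the image and the kernel
  let S : ℤ → Submodule k (Fin 1 → K) := fun n => (J (n - j)).map (smulE k σ)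
  let T : ℤ → Submodule k (Fin 1 → K) := fun n => (J' (n - j)).map (smulE k τ)
  let I : ℤ → Submodule k (Fin 1 → K) := fun n => S n ⊔ T n
  have hIle : ∀ n, I n ≤ one1 C.R n := fun n => by
    refine sup_le ?_ ?_ <;> rintro _ ⟨v, hv, rfl⟩
    · show σ * v 0 ∈ C.R n
      simpa using hσJ _ v hv
    · show τ * v 0 ∈ C.R n
      simpa using hτJ _ v hv
  have hIs : Colength.Stable C I := by
    intro m n c hc x hx
    obtain ⟨_, ⟨u, hu, rfl⟩, _, ⟨v, hv, rfl⟩, rfl⟩ := Submodule.mem_sup.1 hx
    rw [smul_add]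
    refine Submodule.add_mem_sup ⟨c • u, ?_, smul_comm σ c u⟩ ⟨c • v, ?_, smul_comm τ c v⟩
    · have := hJ.smul_mem m _ c hc u hu
      rwa [← add_sub_assoc] at this
    · have := hJ'.smul_mem m _ c hc v hv
      rwa [← add_sub_assoc] at this
  have hinf : ∀ n, S n ⊓ T n = (one1 C.R (n - j - j)).map (smulE k (σ * τ)) := by
    intro n
    ext x
    constructor
    · rintro ⟨⟨u, hu, rfl⟩, v, hv, hvx⟩
      have hx0 : τ * v 0 = σ * u 0 := congrFun hvx 0
      refine ⟨fun _ => u 0 / τ, ?_, ?_⟩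
      · show u 0 / τ ∈ C.R (n - j - j)
        refine hco _ _ ((hsect J' _ _).2 ?_) ((hsect J _ _).2 ?_)
        · rw [show n - (j : ℤ) - j + j = n - j by ring,
            show (fun _ : Fin 1 => u 0 / τ * σ) = v from funext fun i => by
              fin_cases i; show u 0 / τ * σ = v 0; field_simp; linear_combination -hx0]
          exact hv
        · rw [show n - (j : ℤ) - j + j = n - j by ring,
            show (fun _ : Fin 1 => u 0 / τ * τ) = u from funext fun i => by
              fin_cases i; show u 0 / τ * τ = u 0; field_simp]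
          exact hu
      · funext i; fin_cases i
        show σ * τ * (u 0 / τ) = σ * u 0
        field_simp
    · rintro ⟨h, hh, rfl⟩
      refine ⟨⟨τ • h, ?_, ?_⟩, σ • h, ?_, ?_⟩
      · have := hJ.smul_mem (n - j - j) j (h 0) hh _ ((hsect J j τ).1 hτ)
        rw [show n - (j : ℤ) - j + j = n - j by ring,
          show (h 0 • fun _ : Fin 1 => τ) = τ • h from funext fun i => by
            fin_cases i; simp [mul_comm]] at this
        exact this
      · exact smul_smul σ τ h
      · have := hJ'.smul_mem (n - j - j) j (h 0) hh _ ((hsect J' j σ).1 hσ)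
        rw [show n - (j : ℤ) - j + j = n - j by ring,
          show (h 0 • fun _ : Fin 1 => σ) = σ • h from funext fun i => by
            fin_cases i; simp [mul_comm]] at this
        exact this
      · show τ • σ • h = (σ * τ) • h
        rw [smul_smul, mul_comm]
  have hdimI : ∀ n, finrank k (I n) + finrank k (one1 C.R (n - j - j)) =
      finrank k (J (n - j)) + finrank k (J' (n - j)) := by
    intro n
    have := hJ.fd (n - j)
    have := hJ'.fd (n - j)
    have h := Submodule.finrank_sup_add_finrank_inf_eq (S n) (T n)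
    rw [hinf n, finrank_map_smulE (mul_ne_zero hσ0 hτ0), finrank_map_smulE hσ0,
      finrank_map_smulE hτ0] at h
    exact h
  have hqI : Quad a I ((C.d : ℚ) / 2) 0 (2 * c - c₀ - C.d * (j : ℚ) ^ 2) := by
    filter_upwards [eventually_shift hq (-j), eventually_shift hq' (-j),
      eventually_shift hqR (-j - j)] with n h1 h2 h3
    have h : (finrank k (I n) : ℚ) + finrank k (one1 C.R (n - j - j)) =
        finrank k (J (n - j)) + finrank k (J' (n - j)) := by exact_mod_cast hdimI n
    rw [← sub_eq_add_neg] at h1 h2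
    rw [show n + (-(j : ℤ) - j) = n - j - j by ring] at h3
    rw [h1, h2, h3] at h
    push_cast at h ⊢
    linarith
  obtain ⟨L, hLc, hL⟩ := exists_gap (a := a) hR1.fd hIle hqI hqR
  obtain ⟨bR, hbR⟩ := hR1.gen
  have hcol := Colength.frobFam_colength (p := p) hS.2 (N := one1 C.R) (N' := I) stable_one1 hIs
    hIle hR1.fd hR1.below ⟨bR, fun n hn => (hbR n hn).le⟩ L hL
  have hfrob : ∀ n, Colength.frobFam C p I (n + p * j) ≤
      (Colength.frobFam C p J n).map (smulE k (σ ^ p)) ⊔
        (Colength.frobFam C p J' n).map (smulE k (τ ^ p)) := by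
    intro n
    refine Submodule.span_le.2 ?_
    rintro _ ⟨i, e, he, x, hx, rfl⟩
    obtain ⟨_, ⟨u, hu, rfl⟩, _, ⟨v, hv, rfl⟩, rfl⟩ := Submodule.mem_sup.1 hx
    have he' : e ∈ C.R (n - p * (i - j)) := by
      rwa [show n - (p : ℤ) * (i - j) = n + p * j - p * i by ring]
    rw [Colength.frobVec_add, smul_add]
    refine Submodule.add_mem_sup ⟨e • Colength.frobVec p u, Colength.mem_frobFam he' hu, ?_⟩
      ⟨e • Colength.frobVec p v, Colength.mem_frobFam he' hv, ?_⟩
    · show σ ^ p • e • Colength.frobVec p u = e • Colength.frobVec p (σ • u)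
      rw [frobVec_mul, smul_comm]
    · show τ ^ p • e • Colength.frobVec p v = e • Colength.frobVec p (τ • v)
      rw [frobVec_mul, smul_comm]
  have hker : ∀ n, (one1 C.R (n - p * j)).map (smulE k (σ ^ p * τ ^ p)) ≤
      (Colength.frobFam C p J n).map (smulE k (σ ^ p)) ⊓
        (Colength.frobFam C p J' n).map (smulE k (τ ^ p)) := by
    rintro n _ ⟨h, hh, rfl⟩
    refine ⟨⟨h 0 • Colength.frobVec p (fun _ => τ),
      Colength.mem_frobFam hh ((hsect J j τ).1 hτ), ?_⟩,
      h 0 • Colength.frobVec p (fun _ => σ), Colength.mem_frobFam hh ((hsect J' j σ).1 hσ), ?_⟩ <;>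
    · funext i; fin_cases i
      simp [Colength.frobVec]
      ring
  have hfd1 := fun n => Colength.frobFam_fd (C := C) (p := p) hJ.fd hJ.below n
  have hfd2 := fun n => Colength.frobFam_fd (C := C) (p := p) hJ'.fd hJ'.below n
  have hmain : ∀ n, finrank k (Colength.frobFam C p I (n + p * j)) + finrank k (one1 C.R (n - p * j))
      ≤ finrank k (Colength.frobFam C p J n) + finrank k (Colength.frobFam C p J' n) := by
    intro n
    have := hfd1 n
    have := hfd2 n
    have h := Submodule.finrank_sup_add_finrank_inf_eq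
      ((Colength.frobFam C p J n).map (smulE k (σ ^ p)))
      ((Colength.frobFam C p J' n).map (smulE k (τ ^ p)))
    rw [finrank_map_smulE (pow_ne_zero p hσ0), finrank_map_smulE (pow_ne_zero p hτ0)] at h
    have h1 := Submodule.finrank_mono (hfrob n)
    have h2 := Submodule.finrank_mono (hker n)
    rw [finrank_map_smulE (mul_ne_zero (pow_ne_zero p hσ0) (pow_ne_zero p hτ0))] at h2
    omega
  filter_upwards [eventually_shift hqR (p * j), eventually_shift hqR (-(p * j)),
    eventually_shift hcol (p * j)] with n h1 h2 h3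
  rw [← sub_eq_add_neg] at h2
  have hfdI := Colength.frobFam_fd (C := C) (p := p) hR1.fd hR1.below (n + p * j)
  have h4 : finrank k (one1 C.R (n + p * j)) ≤
      finrank k (Colength.frobFam C p I (n + p * j)) + p ^ 2 * L :=
    (Submodule.finrank_mono (le_frobFam_one p _)).trans h3
  have h5 : (finrank k (one1 C.R (n + p * j)) : ℚ) + finrank k (one1 C.R (n - p * j)) ≤
      (finrank k (Colength.frobFam C p J n) : ℚ) + finrank k (Colength.frobFam C p J' n)
        + (p : ℚ) ^ 2 * L := by
    exact_mod_cast (by have := hmain n; omega :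
      finrank k (one1 C.R (n + p * j)) + finrank k (one1 C.R (n - p * j)) ≤
        finrank k (Colength.frobFam C p J n) + finrank k (Colength.frobFam C p J' n) + p ^ 2 * L)
  rw [h1, h2] at h5
  have : (L : ℚ) = 2 * c₀ - 2 * c + C.d * (j : ℚ) ^ 2 := by linarith
  rw [this] at h5
  push_cast at h5
  linarith

theorem quad_unique {W : Type} [AddCommGroup W] [Module k W] {L : ℤ → Submodule k W}
    {α β γ β' γ' : ℚ} (h : Quad a L α β γ) (h' : Quad a L α β' γ') : β = β' ∧ γ = γ' := by
  have e := h.and h'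
  have h1 := quad_le_quad (α := α) (β := β) (γ := γ) (β' := β') (γ' := γ') a
    (e.mono fun n hn => (hn.1.symm.trans hn.2).le)
  have h2 := quad_le_quad (α := α) (β := β') (γ := γ') (β' := β) (γ' := γ) a
    (e.mono fun n hn => (hn.2.symm.trans hn.1).le)
  have hb := le_antisymm h1.1 h2.1
  exact ⟨hb, le_antisymm (h1.2 hb) (h2.2 hb.symm)⟩

theorem quad_mono {W : Type} [AddCommGroup W] [Module k W] {A B : ℤ → Submodule k W}
    {α β γ β' γ' : ℚ} (hfd : ∀ n, FiniteDimensional k (B n)) (hle : ∀ n, A n ≤ B n)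
    (hA : Quad a A α β γ) (hB : Quad a B α β' γ') : β ≤ β' ∧ (β = β' → γ ≤ γ') :=
  quad_le_quad a ((hA.and hB).mono fun n hn => by
    have := hfd n
    rw [← hn.1, ← hn.2]
    exact_mod_cast Submodule.finrank_mono (hle n))

theorem colon_one1 (n : ℤ) : colon C (one1 C.R) n = one1 C.R n := by
  refine le_antisymm (fun u hu => ?_) fun u hu j v hv => ?_
  · have := hu 0 (fun _ => 1) (one_mem_R0 (C := C))
    show u 0 ∈ C.R n
    simpa using this
  · simpa using C.mul_mem n j (u 0) hu (v 0) hv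

/-- The Hilbert polynomial of the ring is symmetric about `a / 2`. -/
theorem exists_quad_one1 (hS : C.Smooth) (hω : OmegaData C a w) :
    ∃ c₀ : ℚ, Quad a (one1 C.R) ((C.d : ℚ) / 2) 0 c₀ := by
  obtain ⟨β, γ, h, h'⟩ := quad_colon hω stable_one1 (fam_of_isMod (isMod_one1 hS.1))
    (colon_colon_of_isMod hω (isMod_one1 hS.1))
  rw [show colon C (one1 C.R) = one1 C.R from funext colon_one1] at h'
  rw [mul_one] at h h'
  have := (quad_unique h h').1
  have hb : β = 0 := by linarith
  subst hb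
  exact ⟨γ, h⟩

theorem pow_mem_R' {c : K} {n : ℤ} (hc : c ∈ C.R n) (p : ℕ) : c ^ p ∈ C.R (p * n) := by
  induction p with
  | zero => simpa using one_mem_R0 (C := C)
  | succ i ih =>
    rw [pow_succ, show ((i + 1 : ℕ) : ℤ) * n = i * n + n by push_cast; ring]
    exact C.mul_mem _ _ _ ih _ hc

theorem frobFam_colon_le {p : ℕ} [Fact p.Prime] [CharP K p] (n : ℤ) :
    Colength.frobFam C p (colon C N) n ≤ colon C (Colength.frobFam C p N) n := by
  refine Submodule.span_le.2 ?_
  rintro _ ⟨j, e, he, u, hu, rfl⟩ m x hx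
  induction hx using Submodule.span_induction with
  | mem x hx =>
    obtain ⟨j', e', he', v, hv, rfl⟩ := hx
    have h1 : ∑ i, (e • Colength.frobVec p u) i * (e' • Colength.frobVec p v) i =
        e * e' * (∑ i, u i * v i) ^ p := by
      rw [sum_pow_char, Finset.mul_sum]
      refine Finset.sum_congr rfl fun i _ => ?_
      simp only [Pi.smul_apply, smul_eq_mul, Colength.frobVec, mul_pow]
      ring
    rw [h1]
    have h2 := C.mul_mem _ _ _ (C.mul_mem _ _ _ he _ he') _ (pow_mem_R' (hu j' v hv) p)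
    rwa [show n - p * j + (m - p * j') + p * (j + j') = n + m by ring] at h2
  | zero => simp
  | add x y _ _ hx hy =>
    simp only [Pi.add_apply, mul_add, Finset.sum_add_distrib]
    exact add_mem hx hy
  | smul c x _ hx =>
    simp only [Pi.smul_apply, mul_smul_comm, ← Finset.smul_sum]
    exact Submodule.smul_mem _ c hx

theorem frobFam_lowPiece_le {p : ℕ} [Fact p.Prime] (i : Fin r) (n : ℤ) :
    Colength.frobFam C p (lowPiece N i) n ≤ lowPiece (Colength.frobFam C p N) i n := by
  refine Submodule.span_le.2 ?_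
  rintro _ ⟨j, e, he, _, ⟨v, hv, rfl⟩, rfl⟩
  refine ⟨e • Colength.frobVec p v, ⟨Colength.mem_frobFam he hv.1, fun l hl => ?_⟩, ?_⟩
  · simp [Colength.frobVec, hv.2 l hl, zero_pow (Fact.out : p.Prime).ne_zero]
  · rfl

theorem frobFam_highPiece_le {p : ℕ} [Fact p.Prime] (i : Fin r) (n : ℤ) :
    Colength.frobFam C p (highPiece N i) n ≤ highPiece (Colength.frobFam C p N) i n := by
  refine Submodule.span_le.2 ?_
  rintro _ ⟨j, e, he, _, ⟨v, hv, rfl⟩, rfl⟩
  refine ⟨e • Colength.frobVec p v, ⟨Colength.mem_frobFam he hv.1, fun l hl => ?_⟩, ?_⟩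
  · simp [Colength.frobVec, hv.2 l hl, zero_pow (Fact.out : p.Prime).ne_zero]
  · rfl

theorem span_frobFam {p : ℕ} [Fact p.Prime] (hF : Fam C.η C.ζ N) :
    span K (⋃ n, (Colength.frobFam C p N n : Set (Fin r → K))) = ⊤ := by
  classical
  rw [eq_top_iff]
  rintro v -
  rw [show v = ∑ i, v i • Pi.single i (1 : K) from funext fun l => by simp [Pi.single_apply]]
  refine Submodule.sum_mem _ fun i _ => Submodule.smul_mem _ _ ?_
  obtain ⟨q, n, hq, hqn⟩ := exists_denom_vec hF (Pi.single i 1)
  have h1 : (1 : K) • Colength.frobVec p (q • (Pi.single i 1 : Fin r → K)) ∈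
      span K (⋃ n, (Colength.frobFam C p N n : Set (Fin r → K))) :=
    subset_span (Set.mem_iUnion.2 ⟨p * n, Colength.mem_frobFam (j := n)
      (by simpa using one_mem_R0 (C := C)) hqn⟩)
  have h2 := Submodule.smul_mem _ (q ^ p)⁻¹ h1
  convert h2 using 1
  funext l
  by_cases hl : l = i
  · subst hl
    simp [Colength.frobVec, hq]
  · simp [Colength.frobVec, hl, zero_pow (Fact.out : p.Prime).ne_zero]

/-- The Riemann-Roch inequality: the reflexive hull of the Frobenius pull-back gains a factor `p²`. -/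
theorem rr_bound [IsAlgClosed k] {p : ℕ} [Fact p.Prime] [CharP k p] (hS : C.Smooth)
    (hω : OmegaData C a w) (hpair : PairProp C) (hN : C.IsMod N) {β γ c₀ : ℚ}
    (hq : Quad a N (((C.d * r : ℕ) : ℚ) / 2) β γ)
    (hqR : Quad a (one1 C.R) ((C.d : ℚ) / 2) 0 c₀) :
    C.IsMod (colon C (colon C (Colength.frobFam C p N))) ∧
      ∃ β' γ' : ℚ, Quad a (colon C (colon C (Colength.frobFam C p N)))
        (((C.d * r : ℕ) : ℚ) / 2) β' γ' ∧ r * c₀ + (p : ℚ) ^ 2 * (γ - r * c₀) ≤ γ' := by
  classical
  have : CharP K p := charP_of_injective_algebraMap (algebraMap k K).injective p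
  have hF := fam_of_isMod hN
  have hs : Stable C N := hN.smul_mem
  have hN' := isMod_colon hω hs hF
  have hF' := fam_of_isMod hN'
  obtain ⟨β₁, γ₁, hq₁, hq'⟩ := quad_colon hω hs hF (colon_colon_of_isMod hω hN)
  obtain ⟨rfl, rfl⟩ := quad_unique hq₁ hq
  clear hq₁
  choose bL cL hL using fun i => exists_quad_lowPiece a hF hs i
  choose bH cH hH using fun i => exists_quad_highPiece a hF' stable_colon i
  have hsumL : ∑ i, bL i = β₁ ∧ ∑ i, cL i = γ₁ := by
    refine quad_unique ?_ hq
    filter_upwards [eventually_all.2 hL] with n hn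
    rw [← sum_lowPiece hF.fd n, Nat.cast_sum, Finset.sum_congr rfl fun i _ => hn i]
    simp only [Finset.sum_add_distrib, ← Finset.sum_mul, Finset.sum_const, Finset.card_univ,
      Fintype.card_fin, nsmul_eq_mul]
    push_cast
    ring
  have hsumH : ∑ i, bH i = -β₁ ∧ ∑ i, cH i = γ₁ := by
    refine quad_unique ?_ hq'
    filter_upwards [eventually_all.2 hH] with n hn
    rw [← sum_highPiece hF'.fd n, Nat.cast_sum, Finset.sum_congr rfl fun i _ => hn i]
    simp only [Finset.sum_add_distrib, ← Finset.sum_mul, Finset.sum_const, Finset.card_univ,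
      Fintype.card_fin, nsmul_eq_mul]
    push_cast
    ring
  -- the rank-one modules around the pieces
  have hpiece : ∀ i, C.IsMod (colon C (colon C (lowPiece N i))) ∧
      C.IsMod (colon C (lowPiece N i)) := by
    intro i
    obtain ⟨n, v, hv, hv0⟩ := exists_lowPiece_ne_zero hF i
    obtain ⟨n', u, hu, hu0⟩ := exists_highPiece_ne_zero hF' i
    have hFc : Fam C.η C.ζ (colon C (lowPiece N i)) :=
      fam_colon_span hS.1 (span_fin_one hv hv0) (span_fin_one (highPiece_le_colon i n' hu) hu0)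
    exact ⟨isMod_colon hω stable_colon hFc,
      isMod_of_fam hω stable_colon hFc fun m => colon_colon_colon m⟩
  have hquad : ∀ i, ∃ b c : ℚ, Quad a (colon C (colon C (lowPiece N i))) ((C.d : ℚ) / 2) b c ∧
      Quad a (colon C (lowPiece N i)) ((C.d : ℚ) / 2) (-b) c := by
    intro i
    obtain ⟨b, c, h, h'⟩ := quad_colon hω stable_colon (fam_of_isMod (hpiece i).1)
      (colon_colon_of_isMod hω (hpiece i).1)
    rw [show colon C (colon C (colon C (lowPiece N i))) = colon C (lowPiece N i) from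
      funext colon_colon_colon] at h'
    rw [mul_one] at h h'
    exact ⟨b, c, h, h'⟩
  choose b c hb hb' using hquad
  have hle1 : ∀ i n, lowPiece N i n ≤ colon C (colon C (lowPiece N i)) n :=
    fun i n => le_colon_colon n
  have hle2 : ∀ i n, highPiece (colon C N) i n ≤ colon C (lowPiece N i) n :=
    fun i n => highPiece_le_colon i n
  have hm1 := fun i => (quad_mono (hpiece i).1.fd (hle1 i) (hL i) (hb i)).1
  have hm2 := fun i => (quad_mono (hpiece i).2.fd (hle2 i) (hH i) (hb' i)).1
  have heq : ∀ i, bL i = b i ∧ bH i = -b i := by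
    intro i
    have h0 : ∑ l, (bL l + bH l) = 0 := by
      rw [Finset.sum_add_distrib, hsumL.1, hsumH.1, add_neg_cancel]
    have h1 := (Finset.sum_eq_zero_iff_of_nonpos fun l _ => by linarith [hm1 l, hm2 l]).1 h0 i
      (Finset.mem_univ i)
    exact ⟨by linarith [hm1 i, hm2 i], by linarith [hm1 i, hm2 i]⟩
  have hstep : ∀ i, ∀ᶠ n : ℤ in atTop,
      (C.d : ℚ) * ((n : ℚ) - (a : ℚ) / 2) ^ 2 + 2 * c₀
        + (p : ℚ) ^ 2 * (cL i + cH i - 2 * c₀) ≤
      (finrank k (lowPiece (Colength.frobFam C p N) i n) : ℚ) +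
        finrank k (highPiece (Colength.frobFam C p (colon C N)) i n) := by
    intro i
    obtain ⟨l, hl, hlev⟩ := exists_gap (hpiece i).1.fd (hle1 i) (by rw [← (heq i).1]; exact hL i)
      (hb i)
    obtain ⟨l', hl', hlev'⟩ := exists_gap (hpiece i).2.fd (hle2 i)
      (by rw [← (heq i).2]; exact hH i) (hb' i)
    obtain ⟨g, hg⟩ := (hpiece i).1.gen
    obtain ⟨g', hg'⟩ := (hpiece i).2.gen
    have hcol := Colength.frobFam_colength (p := p) hS.2 (hpiece i).1.smul_mem
      (stable_lowPiece hs i) (hle1 i) (hpiece i).1.fd (hpiece i).1.below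
      ⟨g, fun n hn => (hg n hn).le⟩ l hlev
    have hcol' := Colength.frobFam_colength (p := p) hS.2 (hpiece i).2.smul_mem
      (stable_highPiece stable_colon i) (hle2 i) (hpiece i).2.fd (hpiece i).2.below
      ⟨g', fun n hn => (hg' n hn).le⟩ l' hlev'
    filter_upwards [hcol, hcol', rankOne_step hS hpair (hpiece i).1 (hpiece i).2 (fun _ => rfl)
      (fun n => (colon_colon_colon n).symm) (hb i) (hb' i) hqR] with n h1 h2 h3
    have := Colength.frobFam_fd (C := C) (p := p) hF.fd hF.below n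
    have := Colength.frobFam_fd (C := C) (p := p) hF'.fd hF'.below n
    have e1 : finrank k (Colength.frobFam C p (lowPiece N i) n) ≤
        finrank k (lowPiece (Colength.frobFam C p N) i n) := by
      have := Submodule.finiteDimensional_of_le (lowPart_le (N := Colength.frobFam C p N) (i.val + 1) n)
      have : FiniteDimensional k (lowPiece (Colength.frobFam C p N) i n) :=
        Module.Finite.map (lowPart (Colength.frobFam C p N) (i.val + 1) n) (toOne k i)
      exact Submodule.finrank_mono (frobFam_lowPiece_le i n)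
    have e2 : finrank k (Colength.frobFam C p (highPiece (colon C N) i) n) ≤
        finrank k (highPiece (Colength.frobFam C p (colon C N)) i n) := by
      have := Submodule.finiteDimensional_of_le
        (highPart_le (N := Colength.frobFam C p (colon C N)) i.val n)
      have : FiniteDimensional k (highPiece (Colength.frobFam C p (colon C N)) i n) :=
        Module.Finite.map (highPart (Colength.frobFam C p (colon C N)) i.val n) (toOne k i)
      exact Submodule.finrank_mono (frobFam_highPiece_le i n)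
    have h4 : (finrank k (Colength.frobFam C p (colon C (colon C (lowPiece N i))) n) : ℚ) +
        finrank k (Colength.frobFam C p (colon C (lowPiece N i)) n) ≤
        (finrank k (lowPiece (Colength.frobFam C p N) i n) : ℚ) +
          finrank k (highPiece (Colength.frobFam C p (colon C N)) i n) +
          (p : ℚ) ^ 2 * ((l : ℚ) + l') := by
      exact_mod_cast (by rw [mul_add]; omega :
        finrank k (Colength.frobFam C p (colon C (colon C (lowPiece N i))) n) +
            finrank k (Colength.frobFam C p (colon C (lowPiece N i)) n) ≤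
          finrank k (lowPiece (Colength.frobFam C p N) i n) +
            finrank k (highPiece (Colength.frobFam C p (colon C N)) i n) + p ^ 2 * (l + l'))
    have e : (p : ℚ) ^ 2 * (2 * c i - 2 * c₀) =
        (p : ℚ) ^ 2 * (cL i + cH i - 2 * c₀) + (p : ℚ) ^ 2 * ((l : ℚ) + l') := by
      linear_combination (p : ℚ) ^ 2 * hl + (p : ℚ) ^ 2 * hl'
    linarith
  -- the hull
  have hH1 : Stable C (Colength.frobFam C p N) := Colength.frobFam_stable
  have hspan' : span K (⋃ n, (colon C (Colength.frobFam C p N) n : Set (Fin r → K))) = ⊤ := by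
    rw [eq_top_iff, ← span_frobFam (p := p) hF']
    exact span_mono (Set.iUnion_mono fun n => frobFam_colon_le n)
  have hFG' : Fam C.η C.ζ (colon C (Colength.frobFam C p N)) :=
    fam_colon_span hS.1 (span_frobFam hF) hspan'
  have hG : C.IsMod (colon C (colon C (Colength.frobFam C p N))) :=
    isMod_colon hω stable_colon hFG'
  obtain ⟨β', γ', hqG, hqG'⟩ := quad_colon hω stable_colon (fam_of_isMod hG)
    (colon_colon_of_isMod hω hG)
  rw [show colon C (colon C (colon C (Colength.frobFam C p N))) = colon C (Colength.frobFam C p N)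
    from funext colon_colon_colon] at hqG'
  refine ⟨hG, β', γ', hqG, ?_⟩
  obtain ⟨n, hn, hn1, hn2⟩ := ((eventually_all.2 hstep).and (hqG.and hqG')).exists
  have hfdN := Colength.frobFam_fd (C := C) (p := p) hF.fd hF.below
  have hfdN' := Colength.frobFam_fd (C := C) (p := p) hF'.fd hF'.below
  have := hG.fd n
  have := hFG'.fd n
  have h := Finset.sum_le_sum fun i (_ : i ∈ Finset.univ) => hn i
  rw [Finset.sum_add_distrib (f := fun i => (finrank k (lowPiece (Colength.frobFam C p N) i n) : ℚ)),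
    ← Nat.cast_sum, ← Nat.cast_sum, sum_lowPiece hfdN, sum_highPiece hfdN',
    Finset.sum_add_distrib, ← Finset.mul_sum, Finset.sum_sub_distrib, Finset.sum_add_distrib,
    Finset.sum_add_distrib, hsumL.2, hsumH.2] at h
  simp only [Finset.sum_const, Finset.card_univ, Fintype.card_fin, nsmul_eq_mul] at h
  have g1 : (finrank k (Colength.frobFam C p N n) : ℚ) ≤
      finrank k (colon C (colon C (Colength.frobFam C p N)) n) := by
    exact_mod_cast Submodule.finrank_mono (le_colon_colon n)
  have g2 : (finrank k (Colength.frobFam C p (colon C N) n) : ℚ) ≤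
      finrank k (colon C (Colength.frobFam C p N) n) := by
    exact_mod_cast Submodule.finrank_mono (frobFam_colon_le (N := N) (p := p) n)
  rw [hn1] at g1
  rw [hn2] at g2
  push_cast at g1 g2 h ⊢
  linarith

end Vale.Agent.P190.Bound
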